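import Crest.Agent.R126.Flow

/-!
From a collision-free motion plan for the boxes to the velocity field and its flow.
-/

set_option autoImplicit false

namespace Crest.Agent.R126

open scoped ContDiff Topology
open Crest.AnalysisR.BoxFlow Real

/-- A collision-free plan: centres `c` and dilation factors `d` as functions of time. -/
structure Plan (n : ℕ) (a b h k : Fin n → Fin 3 → ℚ) where
  c : Fin n → Fin 3 → ℝ → ℝ
  d : Fin n → Fin 3 → ℝ → ℝ
  η : ℚ
  D : ℝ
  η_pos : 0 < η
  good_c : ∀ i l, GoodT (c i l)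
  good_d : ∀ i l, GoodT (d i l)
  good_dinv : ∀ i l, GoodT (fun t => (d i l t)⁻¹)
  d_pos : ∀ i l t, 0 < d i l t
  d_le : ∀ i l t, d i l t ≤ D
  d_prod : ∀ i t, d i 0 t * d i 1 t * d i 2 t = 1
  start : ∀ i l t, t ≤ 1 / 4 → c i l t = a i l ∧ d i l t = 1
  stop : ∀ i l t, 3 / 4 ≤ t → c i l t = b i l ∧ d i l t = ((k i l / h i l : ℚ) : ℝ)
  sep : ∀ i j, i ≠ j → ∀ t, ∃ l,
    d i l t * h i l + d j l t * h j l + 3 * η < |c i l t - c j l t|

namespace Plan

variable {n : ℕ} {a b h k : Fin n → Fin 3 → ℚ} (P : Plan n a b h k)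

/-- Position relative to the centre of box `i`. -/
noncomputable def y (i : Fin n) (l : Fin 3) (p : X) : ℝ := p.2 l - P.c i l p.1

/-- Current half-width of box `i`. -/
noncomputable def r (i : Fin n) (l : Fin 3) (p : X) : ℝ := P.d i l p.1 * h i l

/-- Cut-off around box `i`. -/
noncomputable def chi (i : Fin n) (p : X) : ℝ :=
  ∏ l : Fin 3, (smoothTransition ((P.r i l p + 2 * P.η - P.y i l p) * ((P.η⁻¹ : ℚ) : ℝ)) *
    smoothTransition ((P.r i l p + 2 * P.η + P.y i l p) * ((P.η⁻¹ : ℚ) : ℝ)))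

/-- Velocity of the centre. -/
noncomputable def v (i : Fin n) (l : Fin 3) (t : ℝ) : ℝ := deriv (P.c i l) t

/-- Logarithmic rate of dilation. -/
noncomputable def m (i : Fin n) (l : Fin 3) (t : ℝ) : ℝ := deriv (P.d i l) t * (P.d i l t)⁻¹

/-- First potential of the affine field of box `i`. -/
noncomputable def psi1 (i : Fin n) (p : X) : ℝ :=
  (P.v i 0 p.1 + P.m i 0 p.1 * P.y i 0 p) * P.y i 2 p - P.v i 2 p.1 * P.y i 0 p

/-- Second potential of the affine field of box `i`. -/
noncomputable def psi2 (i : Fin n) (p : X) : ℝ :=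
  (P.v i 1 p.1 + P.m i 1 p.1 * P.y i 1 p) * P.y i 2 p

/-- First potential. -/
noncomputable def pot1 (p : X) : ℝ := ∑ i, P.chi i p * P.psi1 i p

/-- Second potential. -/
noncomputable def pot2 (p : X) : ℝ := ∑ i, P.chi i p * P.psi2 i p

/-- The velocity field. -/
noncomputable def field : Field := curlField P.pot1 P.pot2

theorem good_y (i : Fin n) (l : Fin 3) : Good (P.y i l) := (Good.space l).sub (P.good_c i l)

theorem good_r (i : Fin n) (l : Fin 3) : Good (P.r i l) :=
  Good.mul (P.good_d i l) (Good.const _)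

theorem good_chi (i : Fin n) : Good (P.chi i) := by
  have h2 : Good (fun _ => 2 * (P.η : ℝ)) := (Good.const (2 * P.η)).congr fun _ => by simp
  exact Good.prod _ fun l _ =>
    ((((P.good_r i l).add h2).sub (P.good_y i l)).mul (Good.const _)).step.mul
      ((((P.good_r i l).add h2).add (P.good_y i l)).mul (Good.const _)).step

theorem good_v (i : Fin n) (l : Fin 3) : Good (fun p => P.v i l p.1) := (P.good_c i l).deriv

theorem good_m (i : Fin n) (l : Fin 3) : Good (fun p => P.m i l p.1) :=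
  Good.mul (P.good_d i l).deriv (P.good_dinv i l)

theorem good_psi1 (i : Fin n) : Good (P.psi1 i) :=
  (((P.good_v i 0).add ((P.good_m i 0).mul (P.good_y i 0))).mul (P.good_y i 2)).sub
    ((P.good_v i 2).mul (P.good_y i 0))

theorem good_psi2 (i : Fin n) : Good (P.psi2 i) :=
  ((P.good_v i 1).add ((P.good_m i 1).mul (P.good_y i 1))).mul (P.good_y i 2)

theorem good_pot1 : Good P.pot1 := Good.sum _ fun i _ => (P.good_chi i).mul (P.good_psi1 i)

theorem good_pot2 : Good P.pot2 := Good.sum _ fun i _ => (P.good_chi i).mul (P.good_psi2 i)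

theorem η_pos' : (0 : ℝ) < P.η := by exact_mod_cast P.η_pos

theorem chi_eq_one (i : Fin n) (p : X) (hp : ∀ l, |P.y i l p| ≤ P.r i l p + P.η) :
    P.chi i p = 1 := by
  refine Finset.prod_eq_one fun l _ => ?_
  have h1 := abs_le.1 (hp l)
  have hη := P.η_pos'
  rw [smoothTransition.one_of_one_le, smoothTransition.one_of_one_le, mul_one]
  · push_cast; rw [← div_eq_mul_inv, le_div_iff₀ hη]; linarith
  · push_cast; rw [← div_eq_mul_inv, le_div_iff₀ hη]; linarith

theorem chi_eq_zero (i : Fin n) (p : X) (l : Fin 3) (hp : P.r i l p + 2 * P.η ≤ |P.y i l p|) :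
    P.chi i p = 0 := by
  refine Finset.prod_eq_zero (Finset.mem_univ l) ?_
  have hη : (0 : ℝ) ≤ ((P.η⁻¹ : ℚ) : ℝ) := by push_cast; exact (inv_pos.2 P.η_pos').le
  rcases le_abs.1 hp with h1 | h1
  · rw [smoothTransition.zero_of_nonpos (mul_nonpos_of_nonpos_of_nonneg (by linarith) hη),
      zero_mul]
  · rw [smoothTransition.zero_of_nonpos (x := (P.r i l p + 2 * P.η + P.y i l p) * _)
      (mul_nonpos_of_nonpos_of_nonneg (by linarith) hη), mul_zero]

theorem hasDerivAt_c (i : Fin n) (l : Fin 3) (t : ℝ) : HasDerivAt (P.c i l) (P.v i l t) t :=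
  ((P.good_c i l).smooth.differentiable (by simp) t).hasDerivAt

theorem hasDerivAt_d (i : Fin n) (l : Fin 3) (t : ℝ) :
    HasDerivAt (P.d i l) (P.m i l t * P.d i l t) t := by
  rw [m, mul_assoc, inv_mul_cancel₀ (P.d_pos i l t).ne', mul_one]
  exact ((P.good_d i l).smooth.differentiable (by simp) t).hasDerivAt

theorem m_sum (i : Fin n) (t : ℝ) : P.m i 0 t + P.m i 1 t + P.m i 2 t = 0 := by
  have h1 := ((P.hasDerivAt_d i 0 t).mul (P.hasDerivAt_d i 1 t)).mul (P.hasDerivAt_d i 2 t)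
  have h2 : P.d i 0 * P.d i 1 * P.d i 2 = fun _ => 1 := by
    funext s; exact P.d_prod i s
  rw [h2] at h1
  have h3 := h1.unique (hasDerivAt_const t (1 : ℝ))
  have h4 := P.d_prod i t
  simp only [Pi.mul_apply] at h3
  linear_combination h3 - (P.m i 0 t + P.m i 1 t + P.m i 2 t) * h4

theorem curlField_psi (i : Fin n) (p : X) (l : Fin 3) :
    curlField (P.psi1 i) (P.psi2 i) p l = P.v i l p.1 + P.m i l p.1 * P.y i l p := by
  have e1 : pd 3 (P.psi1 i) p = P.v i 0 p.1 + P.m i 0 p.1 * P.y i 0 p :=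
    pd_succ_eq (P.good_psi1 i).smooth 2 p (P.psi1 i p) _ fun s => by
      simp [psi1, y]; ring
  have e2 : pd 3 (P.psi2 i) p = P.v i 1 p.1 + P.m i 1 p.1 * P.y i 1 p :=
    pd_succ_eq (P.good_psi2 i).smooth 2 p (P.psi2 i p) _ fun s => by
      simp [psi2, y]; ring
  have e3 : pd 1 (P.psi1 i) p = P.m i 0 p.1 * P.y i 2 p - P.v i 2 p.1 :=
    pd_succ_eq (P.good_psi1 i).smooth 0 p (P.psi1 i p) _ fun s => by
      simp [psi1, y]; ring
  have e4 : pd 2 (P.psi2 i) p = P.m i 1 p.1 * P.y i 2 p :=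
    pd_succ_eq (P.good_psi2 i).smooth 1 p (P.psi2 i p) _ fun s => by
      simp [psi2, y]; ring
  fin_cases l
  · exact e1
  · exact e2
  · change -pd 1 (P.psi1 i) p - pd 2 (P.psi2 i) p = P.v i 2 p.1 + P.m i 2 p.1 * P.y i 2 p
    rw [e3, e4]
    linear_combination (-P.y i 2 p) * P.m_sum i p.1

theorem v_m_eq_zero (i : Fin n) (l : Fin 3) (t : ℝ) (ht : t ∉ Set.Icc (1 / 4 : ℝ) (3 / 4)) :
    P.v i l t = 0 ∧ P.m i l t = 0 := by
  have key : ∃ α β : ℝ, (P.c i l =ᶠ[𝓝 t] fun _ => α) ∧ (P.d i l =ᶠ[𝓝 t] fun _ => β) := by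
    rcases lt_or_ge t (1 / 4) with h1 | h1
    · refine ⟨a i l, 1, ?_, ?_⟩
      · filter_upwards [Iic_mem_nhds h1] with s hs using (P.start i l s hs).1
      · filter_upwards [Iic_mem_nhds h1] with s hs using (P.start i l s hs).2
    · have h2 : 3 / 4 < t := by
        by_contra h3
        exact ht ⟨h1, not_lt.1 h3⟩
      refine ⟨b i l, ((k i l / h i l : ℚ) : ℝ), ?_, ?_⟩
      · filter_upwards [Ici_mem_nhds h2] with s hs using (P.stop i l s hs).1
      · filter_upwards [Ici_mem_nhds h2] with s hs using (P.stop i l s hs).2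
  obtain ⟨α, β, h1, h2⟩ := key
  simp [v, m, h1.deriv_eq, h2.deriv_eq]

theorem exists_support : ∃ K : Set X, IsCompact K ∧
    (∀ p ∈ K, p.1 ∈ Set.Icc (1 / 4 : ℝ) (3 / 4)) ∧ ∀ p ∉ K, P.field p = 0 := by
  have hcont : Continuous (fun t : ℝ => ∑ i, ∑ l, (|P.c i l t| + |P.d i l t * h i l|)) := by
    refine continuous_finsetSum _ fun i _ => continuous_finsetSum _ fun l _ => ?_
    exact (P.good_c i l).smooth.continuous.abs.add
      ((P.good_d i l).smooth.continuous.mul continuous_const).abs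
  obtain ⟨C, hC⟩ := (isCompact_Icc (a := (1 / 4 : ℝ)) (b := 3 / 4)).exists_bound_of_continuousOn
    hcont.continuousOn
  have hC0 : 0 ≤ C := (norm_nonneg _).trans (hC (1 / 2) (by norm_num))
  have hη := P.η_pos'
  let K : Set X := Set.Icc (1 / 4 : ℝ) (3 / 4) ×ˢ Metric.closedBall 0 (C + 2 * P.η)
  have hK : IsCompact K := isCompact_Icc.prod (isCompact_closedBall _ _)
  have hpot : ∀ p ∉ K, P.pot1 p = 0 ∧ P.pot2 p = 0 := by
    intro p hp
    by_cases ht : p.1 ∈ Set.Icc (1 / 4 : ℝ) (3 / 4)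
    · have hx : ¬ ‖p.2‖ ≤ C + 2 * P.η := fun hx => hp ⟨ht, mem_closedBall_zero_iff.2 hx⟩
      rw [pi_norm_le_iff_of_nonneg (by linarith)] at hx
      push Not at hx
      obtain ⟨l, hl⟩ := hx
      have hchi : ∀ i, P.chi i p = 0 := by
        intro i
        refine P.chi_eq_zero i p l ?_
        have h1 : |P.c i l p.1| + |P.d i l p.1 * h i l| ≤ C := by
          refine le_trans ?_ ((le_abs_self _).trans (hC p.1 ht))
          refine le_trans ?_ (Finset.single_le_sum (f := fun i =>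
            ∑ l, (|P.c i l p.1| + |P.d i l p.1 * h i l|))
            (fun i _ => Finset.sum_nonneg fun l _ => by positivity) (Finset.mem_univ i))
          exact Finset.single_le_sum (f := fun l => |P.c i l p.1| + |P.d i l p.1 * h i l|)
            (fun l _ => by positivity) (Finset.mem_univ l)
        have h2 := abs_sub_abs_le_abs_sub (p.2 l) (P.c i l p.1)
        have h3 := le_abs_self (P.d i l p.1 * h i l)
        rw [Real.norm_eq_abs] at hl
        simp only [r, y]
        linarith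
      simp [pot1, pot2, hchi]
    · simp [pot1, pot2, psi1, psi2, (P.v_m_eq_zero _ _ _ ht).1, (P.v_m_eq_zero _ _ _ ht).2]
  refine ⟨K, hK, fun p hp => hp.1, fun p hp => ?_⟩
  have hnhds : Kᶜ ∈ 𝓝 p := hK.isClosed.isOpen_compl.mem_nhds hp
  rw [field, curlField_congr (P' := fun _ => 0) (Q' := fun _ => 0), curlField_zero]
  · filter_upwards [hnhds] with q hq using (hpot q hq).1
  · filter_upwards [hnhds] with q hq using (hpot q hq).2

theorem field_eq (i : Fin n) (p : X) (hp : ∀ l, |P.y i l p| < P.r i l p + P.η) (l : Fin 3) :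
    P.field p l = P.v i l p.1 + P.m i l p.1 * P.y i l p := by
  have hcy : ∀ j l, Continuous (P.y j l) := fun j l => (P.good_y j l).smooth.continuous
  have hcr : ∀ j l, Continuous (P.r j l) := fun j l => (P.good_r j l).smooth.continuous
  have h1 : ∀ᶠ q in 𝓝 p, P.chi i q = 1 := by
    have : ∀ᶠ q in 𝓝 p, ∀ l, |P.y i l q| < P.r i l q + P.η :=
      Filter.eventually_all.2 fun l =>
        ContinuousAt.eventually_lt (hcy i l).abs.continuousAt
          ((hcr i l).add continuous_const).continuousAt (hp l)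
    filter_upwards [this] with q hq using P.chi_eq_one i q fun l => (hq l).le
  have h2 : ∀ᶠ q in 𝓝 p, ∀ j, j ≠ i → P.chi j q = 0 := by
    refine Filter.eventually_all.2 fun j => ?_
    by_cases hj : j = i
    · simp [hj]
    obtain ⟨l, hl⟩ := P.sep i j (Ne.symm hj) p.1
    have h3 : P.r j l p + 2 * P.η < |P.y j l p| := by
      have h4 := hp l
      have h5 := abs_sub (P.y j l p) (P.y i l p)
      have h6 : P.y j l p - P.y i l p = P.c i l p.1 - P.c j l p.1 := by simp [y]
      rw [h6] at h5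
      simp only [r] at h4 ⊢
      linarith
    filter_upwards [ContinuousAt.eventually_lt ((hcr j l).add continuous_const).continuousAt
      (hcy j l).abs.continuousAt h3] with q hq _ using P.chi_eq_zero j q l hq.le
  rw [← P.curlField_psi i p l, field, curlField_congr (P' := P.psi1 i) (Q' := P.psi2 i)]
  · filter_upwards [h1, h2] with q hq1 hq2
    rw [pot1, Finset.sum_eq_single i (fun j _ hj => by rw [hq2 j hj, zero_mul]) (by simp), hq1,
      one_mul]
  · filter_upwards [h1, h2] with q hq1 hq2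
    rw [pot2, Finset.sum_eq_single i (fun j _ hj => by rw [hq2 j hj, zero_mul]) (by simp), hq1,
      one_mul]

/-- The neighbourhood of source box `i` that is transported exactly. -/
def nbhd (i : Fin n) : Set (Fin 3 → ℝ) := {x | ∀ l, |x l - a i l| < h i l + P.η / P.D}

theorem one_le_D (i : Fin n) : 1 ≤ P.D := by
  have := P.d_le i 0 0
  rwa [(P.start i 0 0 (by norm_num)).2] at this

theorem isOpen_nbhd (i : Fin n) : IsOpen (P.nbhd i) := by
  rw [nbhd, Set.ofPred_forall]
  exact isOpen_iInter_of_finite fun l => isOpen_lt (by fun_prop) continuous_const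

theorem box_subset_nbhd (i : Fin n) : box (a i) (h i) ⊆ P.nbhd i := by
  intro x hx l
  have h1 := hx l
  have h2 : 0 < (P.η : ℝ) / P.D := div_pos P.η_pos' (by linarith [P.one_le_D i])
  linarith

theorem nbhd_unique {i j : Fin n} {x : Fin 3 → ℝ} (hi : x ∈ P.nbhd i) (hj : x ∈ P.nbhd j) :
    i = j := by
  by_contra hij
  obtain ⟨l, hl⟩ := P.sep i j hij 0
  rw [(P.start i l 0 (by norm_num)).1, (P.start i l 0 (by norm_num)).2,
    (P.start j l 0 (by norm_num)).1, (P.start j l 0 (by norm_num)).2] at hl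
  have h1 := hi l
  have h2 := hj l
  have hη := P.η_pos'
  have h3 : (P.η : ℝ) / P.D ≤ P.η := div_le_self hη.le (P.one_le_D i)
  have h4 := abs_sub (x l - a j l) (x l - a i l)
  rw [show x l - a j l - (x l - a i l) = a i l - a j l by ring] at h4
  linarith

/-- The explicit trajectory of a point near source box `i`. -/
noncomputable def traj (i : Fin n) (x : Fin 3 → ℝ) (t : ℝ) : Fin 3 → ℝ :=
  fun l => P.c i l t + P.d i l t * (x l - a i l)

theorem hasDerivAt_traj (i : Fin n) {x : Fin 3 → ℝ} (hx : x ∈ P.nbhd i) (t : ℝ) :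
    HasDerivAt (P.traj i x) (P.field (t, P.traj i x t)) t := by
  have hy : ∀ l, P.y i l (t, P.traj i x t) = P.d i l t * (x l - a i l) := fun l => by
    simp [y, traj]
  have hD : 0 < P.D := by linarith [P.one_le_D i]
  refine hasDerivAt_pi.2 fun l => ?_
  rw [P.field_eq i _ (fun l => ?_) l, hy, ← mul_assoc]
  · exact (P.hasDerivAt_c i l t).add ((P.hasDerivAt_d i l t).mul_const _)
  · rw [hy, abs_mul, abs_of_pos (P.d_pos i l t)]
    calc P.d i l t * |x l - a i l| < P.d i l t * (h i l + P.η / P.D) :=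
          mul_lt_mul_of_pos_left (hx l) (P.d_pos i l t)
      _ = P.d i l t * h i l + (P.d i l t / P.D) * P.η := by ring
      _ ≤ P.d i l t * h i l + 1 * P.η := by
          gcongr
          · exact P.η_pos'.le
          · exact (div_le_one hD).2 (P.d_le i l t)
      _ = _ := by simp [r]

include P in
theorem main :
    ∃ (U : Field) (Φ : ℝ → (Fin 3 → ℝ) → (Fin 3 → ℝ)),
      ContDiff ℝ ∞ U ∧ HasCompactSupport U ∧ Effective U ∧
      (∀ p : ℝ × (Fin 3 → ℝ), p.1 ∉ Set.Icc (1 / 4 : ℝ) (3 / 4) → U p = 0) ∧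
      (∀ p : ℝ × (Fin 3 → ℝ), spaceDiv U p = 0) ∧ IsFlow U Φ ∧
      ∀ i : Fin n, ∃ O : Set (Fin 3 → ℝ), IsOpen O ∧ box (a i) (h i) ⊆ O ∧
        ∀ x ∈ O, Φ 1 x =
          fun j => (b i j : ℝ) + ((k i j / h i j : ℚ) : ℝ) * (x j - (a i j : ℝ)) := by
  obtain ⟨K, hK, hK1, hK2⟩ := P.exists_support
  have hs : ContDiff ℝ ∞ P.field := curlField_smooth P.good_pot1 P.good_pot2
  have hc : HasCompactSupport P.field := HasCompactSupport.intro hK hK2
  have hz : ∀ p : X, p.1 ∉ Set.Icc (1 / 4 : ℝ) (3 / 4) → P.field p = 0 :=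
    fun p hp => hK2 p fun h => hp (hK1 p h)
  have key : ∀ x : Fin 3 → ℝ, ∃ γ : ℝ → Fin 3 → ℝ, γ 0 = x ∧
      (∀ t, HasDerivAt γ (P.field (t, γ t)) t) ∧ ∀ i, x ∈ P.nbhd i → γ 1 =
        fun j => (b i j : ℝ) + ((k i j / h i j : ℚ) : ℝ) * (x j - (a i j : ℝ)) := by
    intro x
    by_cases hx : ∃ i, x ∈ P.nbhd i
    · obtain ⟨i, hi⟩ := hx
      refine ⟨P.traj i x, ?_, P.hasDerivAt_traj i hi, fun j hj => ?_⟩
      · funext l
        simp [traj, (P.start i l 0 (by norm_num)).1, (P.start i l 0 (by norm_num)).2]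
      · obtain rfl := P.nbhd_unique hi hj
        funext l
        rw [traj, (P.stop i l 1 (by norm_num)).1, (P.stop i l 1 (by norm_num)).2]
    · obtain ⟨γ, h0, hγ⟩ := exists_global_solution hs hc hz x
      exact ⟨γ, h0, hγ, fun i hi => absurd ⟨i, hi⟩ hx⟩
  choose γ h0 hγ h1 using key
  exact ⟨P.field, fun t x => γ x t, hs, hc,
    effective_of_good (curlField_good P.good_pot1 P.good_pot2) hc, hz,
    spaceDiv_curlField P.good_pot1 P.good_pot2, ⟨h0, fun t x => hγ x t⟩,
    fun i => ⟨P.nbhd i, P.isOpen_nbhd i, P.box_subset_nbhd i, fun x hx => h1 x i hx⟩⟩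

end Plan

end Crest.Agent.R126
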