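import Crest.Agent.R126.Good

/-!
Partial derivatives of good functions, iterated finite differences and effectiveness of
compactly supported fields with good components.
-/

set_option autoImplicit false

namespace Crest.Agent.R126

open scoped ContDiff Nat Topology
open Crest.AnalysisR.BoxFlow Crest.Agent.Lib.Computability

/-- Partial derivative of a scalar function in a coordinate direction. -/
noncomputable def pd (d : Fin 4) (f : X → ℝ) : X → ℝ := fun p => fderiv ℝ f p (direction d)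

/-- Mixed partial derivative of a scalar function. -/
noncomputable def md : List (Fin 4) → (X → ℝ) → X → ℝ
  | [], f => f
  | d :: ds, f => pd d (md ds f)

theorem norm_direction_le (d : Fin 4) : ‖direction d‖ ≤ 1 := by
  unfold direction
  split_ifs with h
  · simp
  · simp [Pi.norm_single]

theorem pd_smooth (d : Fin 4) {f : X → ℝ} (hf : ContDiff ℝ ∞ f) : ContDiff ℝ ∞ (pd d f) :=
  (hf.fderiv_right (m := ∞) (by simp)).clm_apply contDiff_const

theorem md_smooth (ds : List (Fin 4)) {f : X → ℝ} (hf : ContDiff ℝ ∞ f) :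
    ContDiff ℝ ∞ (md ds f) := by
  induction ds with
  | nil => exact hf
  | cons d ds ih => exact pd_smooth d ih

theorem norm_iteratedFDeriv_pd_le (d : Fin 4) {f : X → ℝ} (hf : ContDiff ℝ ∞ f) (i : ℕ) (x : X) :
    ‖iteratedFDeriv ℝ i (pd d f) x‖ ≤ ‖iteratedFDeriv ℝ (i + 1) f x‖ := by
  have h := norm_iteratedFDeriv_clm_apply_const (f := fderiv ℝ f) (c := direction d) (x := x)
    (N := ∞) (n := i) (hf.fderiv_right (m := ∞) (by simp)).contDiffAt (natCast_le_infty i)
  rw [norm_iteratedFDeriv_fderiv] at h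
  refine h.trans ?_
  exact mul_le_of_le_one_left (norm_nonneg _) (norm_direction_le d)

theorem norm_iteratedFDeriv_md_le (ds : List (Fin 4)) {f : X → ℝ} (hf : ContDiff ℝ ∞ f) :
    ∀ (i : ℕ) (x : X),
    ‖iteratedFDeriv ℝ i (md ds f) x‖ ≤ ‖iteratedFDeriv ℝ (i + ds.length) f x‖ := by
  induction ds with
  | nil => intro i x; exact le_rfl
  | cons d ds ih =>
    intro i x
    refine (norm_iteratedFDeriv_pd_le d (md_smooth ds hf) i x).trans ((ih (i + 1) x).trans ?_)
    rw [List.length_cons, show i + 1 + ds.length = i + (ds.length + 1) by ring]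

theorem abs_md_le (ds : List (Fin 4)) {f : X → ℝ} (hf : ContDiff ℝ ∞ f) (x : X) :
    |md ds f x| ≤ ‖iteratedFDeriv ℝ ds.length f x‖ := by
  have := norm_iteratedFDeriv_md_le ds hf 0 x
  rwa [zero_add, norm_iteratedFDeriv_zero] at this

theorem hasDerivAt_line (d : Fin 4) {f : X → ℝ} (hf : ContDiff ℝ ∞ f) (x : X) (s : ℝ) :
    HasDerivAt (fun s : ℝ => f (x + s • direction d)) (pd d f (x + s • direction d)) s := by
  have h1 : HasDerivAt (fun s : ℝ => x + s • direction d) (direction d) s := by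
    simpa using ((hasDerivAt_id s).smul_const (direction d)).const_add x
  exact (hf.differentiable (by simp) _).hasFDerivAt.comp_hasDerivAt s h1

/-- Forward difference quotient. -/
noncomputable def dq (ε : ℝ) (d : Fin 4) (f : X → ℝ) : X → ℝ :=
  fun p => (f (p + ε • direction d) - f p) / ε

theorem dq_eq_mean (ε : ℝ) (hε : 0 < ε) (d : Fin 4) {f : X → ℝ} (hf : ContDiff ℝ ∞ f) (x : X) :
    ∃ c ∈ Set.Ioo 0 ε, dq ε d f x = pd d f (x + c • direction d) := by
  obtain ⟨c, hc, h⟩ := exists_hasDerivAt_eq_slope (fun s : ℝ => f (x + s • direction d))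
    (fun s => pd d f (x + s • direction d)) hε
    (fun s _ => (hasDerivAt_line d hf x s).continuousAt.continuousWithinAt)
    (fun s _ => hasDerivAt_line d hf x s)
  exact ⟨c, hc, by simp [dq, h]⟩

theorem abs_pd_sub_dq_le (ε : ℝ) (hε : 0 < ε) (d : Fin 4) {f : X → ℝ} (hf : ContDiff ℝ ∞ f)
    (x : X) (M : ℝ) (hM : ∀ s ∈ Set.Ioo 0 ε, |pd d (pd d f) (x + s • direction d)| ≤ M) :
    |pd d f x - dq ε d f x| ≤ ε * M := by
  obtain ⟨c, hc, h⟩ := dq_eq_mean ε hε d hf x
  obtain ⟨c', hc', h'⟩ := dq_eq_mean c hc.1 d (pd_smooth d hf) x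
  have h1 := hM c' ⟨hc'.1, hc'.2.trans hc.2⟩
  rw [← h', dq, abs_div, abs_of_pos hc.1, div_le_iff₀ hc.1] at h1
  rw [h, abs_sub_comm]
  have hM0 : 0 ≤ M := le_trans (abs_nonneg _) (hM c hc)
  calc _ ≤ M * c := h1
    _ ≤ M * ε := by gcongr; exact hc.2.le
    _ = _ := mul_comm _ _

/-- Rational version of `direction`. -/
def dirQ (d : Fin 4) : QX :=
  if h : d = 0 then (1, 0) else (0, Pi.single (d.pred h) 1)

/-- Shift of a rational point. -/
def shift (ε : ℚ) (d : Fin 4) (q : QX) : QX :=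
  (q.1 + ε * (dirQ d).1, fun j => q.2 j + ε * (dirQ d).2 j)

theorem incl_shift (ε : ℚ) (d : Fin 4) (q : QX) :
    incl (shift ε d q) = incl q + (ε : ℝ) • direction d := by
  unfold shift dirQ direction incl
  split_ifs with h
  · ext j <;> simp [ratPoint]
  · ext j
    · simp
    · simp only [ratPoint, Prod.snd_add, Prod.smul_snd, Pi.add_apply, Pi.smul_apply, smul_eq_mul,
        Pi.single_apply]
      split_ifs <;> simp

theorem primrec_shift {α : Type*} [Primcodable α] {ε : α → ℚ} {d : α → Fin 4} {q : α → QX}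
    (hε : Primrec ε) (hd : Primrec d) (hq : Primrec q) :
    Primrec (fun a => shift (ε a) (d a) (q a)) := by
  have hdir : Primrec (fun a => dirQ (d a)) := (Primrec.dom_finite dirQ).comp hd
  refine Primrec.pair (rat_add.comp (Primrec.fst.comp hq)
    (rat_mul.comp hε (Primrec.fst.comp hdir))) ?_
  refine Primrec.fin_curry.2 (Primrec₂.swap (Primrec.fin_curry₁.2 fun j => ?_))
  exact rat_add.comp ((primrec_coord j).comp hq) (rat_mul.comp hε ((primrec_coord j).comp hdir))

theorem Good.pd {f : X → ℝ} (hf : Good f) (d : Fin 4) : Good (pd d f) := by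
  refine ⟨pd_smooth d hf.smooth, fun R => ?_, fun R => ?_⟩
  · obtain ⟨B, hB, hB'⟩ := hf.tame R
    exact ⟨fun k => B (k + 1), hB.comp Primrec.succ, fun k i hi x hx =>
      (norm_iteratedFDeriv_pd_le d hf.smooth i x).trans (hB' _ _ (by omega) x hx)⟩
  · obtain ⟨B, -, hB'⟩ := hf.tame (R + 1)
    obtain ⟨A, hA, hA'⟩ := hf.apx (R + 1)
    set M := B 2
    let N : ℕ → ℕ := fun n => 2 * (n + 1) * (M + 1)
    let m : ℕ → ℕ := fun n => 4 * (n + 1) * N n
    have hN : Primrec N := Primrec.nat_mul.comp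
      (Primrec.nat_double.comp Primrec.succ) (Primrec.const _)
    have hm : Primrec m := Primrec.nat_mul.comp
      (Primrec.nat_mul.comp (Primrec.const _) Primrec.succ) hN
    have hNq : Primrec (fun z : QX × ℕ => (N z.2 : ℚ)) := rat_natCast.comp (hN.comp Primrec.snd)
    refine ⟨fun z => (A (shift (N z.2 : ℚ)⁻¹ d z.1, m z.2) - A (z.1, m z.2)) * N z.2,
      rat_mul.comp (rat_sub.comp (hA.comp (Primrec.pair
        (primrec_shift (rat_inv.comp hNq) (Primrec.const d) Primrec.fst) (hm.comp Primrec.snd)))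
        (hA.comp (Primrec.pair Primrec.fst (hm.comp Primrec.snd)))) hNq, fun q n hq => ?_⟩
    have hN1 : (1 : ℝ) ≤ N n := by
      have : 1 ≤ N n := Nat.one_le_iff_ne_zero.2 (by simp [N])
      exact_mod_cast this
    have hN0 : (0 : ℝ) < N n := by linarith
    set ε : ℝ := (N n : ℝ)⁻¹ with hε
    have hε0 : 0 < ε := inv_pos.2 hN0
    have hε1 : ε ≤ 1 := inv_le_one_of_one_le₀ hN1
    have hball : ∀ s, 0 ≤ s → s ≤ ε → ‖incl q + s • direction d‖ ≤ ((R + 1 : ℕ) : ℝ) := by
      intro s hs0 hs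
      push_cast
      refine (norm_add_le _ _).trans (add_le_add hq ?_)
      rw [norm_smul, Real.norm_eq_abs, abs_of_nonneg hs0]
      exact mul_le_one₀ (hs.trans hε1) (norm_nonneg _) (norm_direction_le d)
    have h1 := abs_pd_sub_dq_le ε hε0 d hf.smooth (incl q) M fun s hs =>
      (abs_md_le [d, d] hf.smooth _).trans (hB' 2 2 le_rfl _ (hball s hs.1.le hs.2.le))
    have hsh : incl (shift (N n : ℚ)⁻¹ d q) = incl q + ε • direction d := by
      rw [incl_shift]; push_cast; rfl
    have h2 := hA' (shift (N n : ℚ)⁻¹ d q) (m n) (by rw [hsh]; exact hball ε hε0.le le_rfl)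
    have h3 := hA' q (m n) (by simpa using hball 0 le_rfl hε0.le)
    rw [hsh] at h2
    push_cast
    refine (abs_sub_le _ (dq ε d f (incl q)) _).trans ?_
    have h4 : ε * M ≤ 1 / (2 * (n + 1)) := by
      rw [hε, inv_mul_eq_div, div_le_div_iff₀ hN0 (by positivity)]
      simp only [N]; push_cast
      nlinarith
    have h5 : |dq ε d f (incl q) - (((A (shift (N n : ℚ)⁻¹ d q, m n) : ℚ) : ℝ) - A (q, m n)) * N n|
        ≤ 1 / (2 * (n + 1)) := by
      have : dq ε d f (incl q) - (((A (shift (N n : ℚ)⁻¹ d q, m n) : ℚ) : ℝ) - A (q, m n)) * N n =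
          ((f (incl q + ε • direction d) - A (shift (N n : ℚ)⁻¹ d q, m n)) -
            (f (incl q) - A (q, m n))) * N n := by
        rw [dq, hε, div_inv_eq_mul]; ring
      rw [this, abs_mul, abs_of_pos hN0]
      calc _ ≤ (1 / ((m n : ℝ) + 1) + 1 / ((m n : ℝ) + 1)) * N n := by
            gcongr
            exact (abs_sub _ _).trans (add_le_add h2 h3)
        _ = (2 * N n) / ((m n : ℝ) + 1) := by ring
        _ ≤ _ := by
            rw [div_le_div_iff₀ (by positivity) (by positivity)]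
            simp only [m]; push_cast
            nlinarith
    have h6 : 1 / (2 * ((n : ℝ) + 1)) + 1 / (2 * (n + 1)) = 1 / (n + 1) := by
      field_simp; ring
    linarith

theorem dq_smooth (ε : ℝ) (d : Fin 4) {f : X → ℝ} (hf : ContDiff ℝ ∞ f) :
    ContDiff ℝ ∞ (dq ε d f) :=
  ((hf.comp (contDiff_id.add contDiff_const)).sub hf).div_const ε

theorem pd_dq (ε : ℝ) (d e : Fin 4) {f : X → ℝ} (hf : ContDiff ℝ ∞ f) :
    pd e (dq ε d f) = dq ε d (pd e f) := by
  funext p
  have hd : Differentiable ℝ f := hf.differentiable (by simp)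
  have h1 : HasFDerivAt (fun p => f (p + ε • direction d)) (fderiv ℝ f (p + ε • direction d)) p :=
    (hasFDerivAt_comp_add_right _).2 (hd _).hasFDerivAt
  have h2 : HasFDerivAt (dq ε d f)
      (ε⁻¹ • (fderiv ℝ f (p + ε • direction d) - fderiv ℝ f p)) p := by
    have := (h1.sub (hd p).hasFDerivAt).const_smul ε⁻¹
    have h3 : dq ε d f = ε⁻¹ • ((fun p => f (p + ε • direction d)) - f) := by
      funext y
      simp [dq, div_eq_inv_mul]
    rw [h3]
    exact this
  simp [pd, h2.fderiv, dq, div_eq_inv_mul]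

theorem md_dq (ε : ℝ) (d : Fin 4) (ds : List (Fin 4)) {f : X → ℝ} (hf : ContDiff ℝ ∞ f) :
    md ds (dq ε d f) = dq ε d (md ds f) := by
  induction ds with
  | nil => rfl
  | cons e ds ih => simp only [md, ih, pd_dq ε d e (md_smooth ds hf)]

/-- Iterated difference quotients. -/
noncomputable def fd (ε : ℝ) : List (Fin 4) → (X → ℝ) → X → ℝ
  | [], f => f
  | d :: ds, f => fd ε ds (dq ε d f)

theorem abs_md_sub_fd_le (ε : ℝ) (hε : 0 < ε) (M : ℝ) (ds : List (Fin 4)) :
    ∀ {f : X → ℝ}, ContDiff ℝ ∞ f →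
      (∀ es : List (Fin 4), es.length = ds.length + 1 → ∀ x, |md es f x| ≤ M) →
      ∀ x, |md ds f x - fd ε ds f x| ≤ ds.length * (ε * M) := by
  induction ds with
  | nil => intro f _ _ x; simp [md, fd]
  | cons d ds ih =>
    intro f hf hM x
    have h1 := abs_pd_sub_dq_le ε hε d (md_smooth ds hf) x M fun s _ =>
      hM (d :: d :: ds) (by simp) _
    have h2 := ih (dq_smooth ε d hf) (fun es hes y => by
      rw [md_dq ε d es hf]
      obtain ⟨c, -, hc⟩ := dq_eq_mean ε hε d (md_smooth es hf) y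
      rw [hc]
      exact hM (d :: es) (by simp [hes]) _) x
    rw [md_dq ε d ds hf] at h2
    simp only [md, fd, List.length_cons]
    push_cast
    refine (abs_sub_le _ (dq ε d (md ds f) x) _).trans ?_
    linarith

/-- Coefficients and nodes of the iterated difference quotient. -/
def nodes (ε : ℚ) (q : QX) (ds : List (Fin 4)) : List (ℚ × QX) :=
  ds.foldr (fun d L => L.map (fun cq => (cq.1 / ε, shift ε d cq.2)) ++
    L.map (fun cq => (-(cq.1 / ε), cq.2))) [(1, q)]

theorem nodes_cons (ε : ℚ) (q : QX) (d : Fin 4) (ds : List (Fin 4)) :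
    nodes ε q (d :: ds) = (nodes ε q ds).map (fun cq => (cq.1 / ε, shift ε d cq.2)) ++
      (nodes ε q ds).map (fun cq => (-(cq.1 / ε), cq.2)) := rfl

theorem fd_eq_sum (ε : ℚ) (q : QX) (ds : List (Fin 4)) : ∀ f : X → ℝ,
    fd ε ds f (incl q) = ((nodes ε q ds).map fun cq => (cq.1 : ℝ) * f (incl cq.2)).sum := by
  induction ds with
  | nil => intro f; simp [fd, nodes]
  | cons d ds ih =>
    intro f
    rw [fd, ih, nodes_cons, List.map_append, List.sum_append, List.map_map, List.map_map,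
      ← List.sum_map_add]
    congr 1
    refine List.map_congr_left fun cq _ => ?_
    simp only [dq, Function.comp_apply, incl_shift]
    push_cast
    ring

theorem sum_abs_nodes (ε : ℚ) (hε : 0 < ε) (q : QX) (ds : List (Fin 4)) :
    ((nodes ε q ds).map fun cq => |(cq.1 : ℝ)|).sum = (2 / (ε : ℝ)) ^ ds.length := by
  have hε' : (0 : ℝ) < ε := by exact_mod_cast hε
  induction ds with
  | nil => simp [nodes]
  | cons d ds ih =>
    rw [nodes_cons, List.map_append, List.sum_append, List.map_map, List.map_map,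
      ← List.sum_map_add, List.length_cons, pow_succ, ← ih, ← List.sum_map_mul_right]
    congr 1
    refine List.map_congr_left fun cq _ => ?_
    simp only [Function.comp_apply]
    push_cast
    rw [abs_neg, abs_div, abs_of_pos hε']
    ring

theorem abs_list_sum_sub_le {α : Type*} (L : List α) (c f g : α → ℝ) (δ : ℝ)
    (h : ∀ a, |f a - g a| ≤ δ) :
    |(L.map fun a => c a * f a).sum - (L.map fun a => c a * g a).sum| ≤
      (L.map fun a => |c a|).sum * δ := by
  induction L with
  | nil => simp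
  | cons a L ih =>
    simp only [List.map_cons, List.sum_cons]
    have h1 : |c a * f a - c a * g a| ≤ |c a| * δ := by
      rw [← mul_sub, abs_mul]; gcongr; exact h a
    calc _ = |(c a * f a - c a * g a) +
          ((L.map fun a => c a * f a).sum - (L.map fun a => c a * g a).sum)| := by congr 1; ring
      _ ≤ _ := abs_add_le _ _
      _ ≤ |c a| * δ + (L.map fun a => |c a|).sum * δ := add_le_add h1 ih
      _ = _ := by ring

theorem primrec_nodes {α : Type*} [Primcodable α] {ε : α → ℚ} {q : α → QX}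
    {ds : α → List (Fin 4)} (hε : Primrec ε) (hq : Primrec q) (hds : Primrec ds) :
    Primrec (fun a => nodes (ε a) (q a) (ds a)) := by
  have hL : Primrec (fun z : α × (Fin 4 × List (ℚ × QX)) => z.2.2) := Primrec.snd.comp Primrec.snd
  have hε' : Primrec (fun z : (α × (Fin 4 × List (ℚ × QX))) × (ℚ × QX) => ε z.1.1) :=
    hε.comp (Primrec.fst.comp Primrec.fst)
  have hc : Primrec (fun z : (α × (Fin 4 × List (ℚ × QX))) × (ℚ × QX) => z.2.1 / ε z.1.1) :=
    rat_div.comp (Primrec.fst.comp Primrec.snd) hε'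
  have h1 := Primrec.list_map hL (g := fun z cq => (cq.1 / ε z.1, shift (ε z.1) z.2.1 cq.2))
    (Primrec.pair hc (primrec_shift hε' (Primrec.fst.comp (Primrec.snd.comp Primrec.fst))
      (Primrec.snd.comp Primrec.snd))).to₂
  have h2 := Primrec.list_map hL (g := fun z cq => (-(cq.1 / ε z.1), cq.2))
    (Primrec.pair (rat_neg.comp hc) (Primrec.snd.comp Primrec.snd)).to₂
  exact Primrec.list_foldr (h := fun a (p : Fin 4 × List (ℚ × QX)) =>
      p.2.map (fun cq => (cq.1 / ε a, shift (ε a) p.1 cq.2)) ++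
        p.2.map (fun cq => (-(cq.1 / ε a), cq.2))) hds
    (Primrec.list_cons.comp (Primrec.pair (Primrec.const 1) hq) (Primrec.const []))
    (Primrec.list_append.comp h1 h2).to₂

/-- All mixed derivatives can be approximated once the function can and its derivatives are
globally bounded. -/
theorem exists_md_approx {f : X → ℝ} (hf : ContDiff ℝ ∞ f) {B : ℕ → ℕ} (hB : Primrec B)
    (hB' : ∀ k x, ‖iteratedFDeriv ℝ k f x‖ ≤ B k) {A : QX × ℕ → ℚ} (hA : Primrec A)
    (hA' : ∀ q n, |f (incl q) - A (q, n)| ≤ 1 / ((n : ℝ) + 1)) :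
    ∃ E : List (Fin 4) × QX × ℕ → ℚ, Primrec E ∧
      ∀ ds q n, |md ds f (incl q) - E (ds, q, n)| ≤ 1 / ((n : ℝ) + 1) := by
  let N : List (Fin 4) × QX × ℕ → ℕ := fun z =>
    2 * (z.2.2 + 1) * (z.1.length * B (z.1.length + 1) + 1)
  let m : List (Fin 4) × QX × ℕ → ℕ := fun z => 2 * (z.2.2 + 1) * (2 * N z) ^ z.1.length
  have hlen : Primrec (fun z : List (Fin 4) × QX × ℕ => z.1.length) :=
    Primrec.list_length.comp Primrec.fst
  have hn : Primrec (fun z : List (Fin 4) × QX × ℕ => 2 * (z.2.2 + 1)) :=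
    Primrec.nat_double.comp (Primrec.succ.comp (Primrec.snd.comp Primrec.snd))
  have hN : Primrec N := Primrec.nat_mul.comp hn
    (Primrec.succ.comp (Primrec.nat_mul.comp hlen (hB.comp (Primrec.succ.comp hlen))))
  have hm : Primrec m := Primrec.nat_mul.comp hn (nat_pow.comp (Primrec.nat_double.comp hN) hlen)
  have hnodes : Primrec (fun z : List (Fin 4) × QX × ℕ => nodes (N z : ℚ)⁻¹ z.2.1 z.1) :=
    primrec_nodes (rat_inv.comp (rat_natCast.comp hN)) (Primrec.fst.comp Primrec.snd) Primrec.fst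
  refine ⟨fun z => ((nodes (N z : ℚ)⁻¹ z.2.1 z.1).map fun cq => cq.1 * A (cq.2, m z)).sum,
    rat_list_sum.comp (Primrec.list_map hnodes (rat_mul.comp (Primrec.fst.comp Primrec.snd)
      (hA.comp (Primrec.pair (Primrec.snd.comp Primrec.snd) (hm.comp Primrec.fst)))).to₂),
    fun ds q n => ?_⟩
  set N0 := N (ds, q, n) with hN0
  set m0 := m (ds, q, n) with hm0
  have hNpos : 0 < N0 := by simp [hN0, N]
  have hNr : (0 : ℝ) < N0 := by exact_mod_cast hNpos
  have hNq : (0 : ℚ) < (N0 : ℚ)⁻¹ := by positivity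
  have h1 := abs_md_sub_fd_le ((N0 : ℚ)⁻¹ : ℚ) (by exact_mod_cast hNq) (B (ds.length + 1)) ds hf
    (fun es hes x => by rw [← hes]; exact (abs_md_le es hf x).trans (hB' _ x)) (incl q)
  rw [fd_eq_sum] at h1
  have h2 := abs_list_sum_sub_le (nodes (N0 : ℚ)⁻¹ q ds) (fun cq => (cq.1 : ℝ))
    (fun cq => f (incl cq.2)) (fun cq => (A (cq.2, m0) : ℝ)) (1 / ((m0 : ℝ) + 1))
    (fun cq => hA' cq.2 m0)
  rw [sum_abs_nodes _ hNq] at h2
  have h3 : ((((nodes (N0 : ℚ)⁻¹ q ds).map fun cq => cq.1 * A (cq.2, m0)).sum : ℚ) : ℝ) =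
      ((nodes (N0 : ℚ)⁻¹ q ds).map fun cq => (cq.1 : ℝ) * (A (cq.2, m0) : ℝ)).sum := by
    rw [Rat.cast_list_sum, List.map_map]
    congr 1
    refine List.map_congr_left fun cq _ => ?_
    simp
  simp only
  rw [h3]
  refine (abs_sub_le _ _ _).trans ((add_le_add h1 h2).trans ?_)
  push_cast
  have h4 : (ds.length : ℝ) * ((N0 : ℝ)⁻¹ * B (ds.length + 1)) ≤ 1 / (2 * (n + 1)) := by
    rw [inv_mul_eq_div, ← mul_div_assoc, div_le_div_iff₀ hNr (by positivity)]
    simp only [hN0, N]; push_cast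
    have : (0 : ℝ) ≤ n := Nat.cast_nonneg n
    nlinarith
  have h5 : (2 / (N0 : ℝ)⁻¹) ^ ds.length * (1 / ((m0 : ℝ) + 1)) ≤ 1 / (2 * (n + 1)) := by
    rw [div_inv_eq_mul, mul_one_div, div_le_div_iff₀ (by positivity) (by positivity)]
    simp only [hm0, m, ← hN0]; push_cast
    nlinarith
  have h6 : 1 / (2 * ((n : ℝ) + 1)) + 1 / (2 * (n + 1)) = 1 / (n + 1) := by
    field_simp; ring
  linarith

theorem mixedDeriv_smooth (ds : List (Fin 4)) {U : Field} (hU : ContDiff ℝ ∞ U) :
    ContDiff ℝ ∞ (mixedDeriv ds U) := by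
  induction ds with
  | nil => exact hU
  | cons d ds ih => exact (ih.fderiv_right (m := ∞) (by simp)).clm_apply contDiff_const

theorem mixedDeriv_apply (ds : List (Fin 4)) {U : Field} (hU : ContDiff ℝ ∞ U) (j : Fin 3) :
    (fun p => mixedDeriv ds U p j) = md ds (fun p => U p j) := by
  induction ds with
  | nil => rfl
  | cons d ds ih =>
    funext p
    simp only [mixedDeriv, md, pd, ← ih]
    rw [fderiv_apply ((mixedDeriv_smooth ds hU).differentiable (by simp) p) j]
    rfl

theorem primrecPred_ball (R : ℕ) : PrimrecPred (fun q : QX => ‖incl q‖ ≤ R) := by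
  have h0 : PrimrecPred (fun q : QX => |q.1| ≤ (R : ℚ)) :=
    rat_le.comp (rat_abs.comp Primrec.fst) (Primrec.const _)
  have h1 : ∀ j, PrimrecPred (fun q : QX => |q.2 j| ≤ (R : ℚ)) := fun j =>
    rat_le.comp (rat_abs.comp (primrec_coord j)) (Primrec.const _)
  refine (h0.and ((h1 0).and ((h1 1).and (h1 2)))).of_eq fun q => ?_
  have hR : (0 : ℝ) ≤ R := Nat.cast_nonneg R
  rw [Prod.norm_def, max_le_iff, pi_norm_le_iff_of_nonneg hR, Fin.forall_fin_succ,
    Fin.forall_fin_two]
  simp only [incl, ratPoint, Real.norm_eq_abs]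
  have key : ∀ r : ℚ, |r| ≤ (R : ℚ) ↔ |(r : ℝ)| ≤ R := fun r => by
    rw [← Rat.cast_abs]; exact_mod_cast Iff.rfl
  simp only [key]
  rfl

/-- A compactly supported field with good components is effective. -/
theorem effective_of_good {U : Field} (hU : ∀ j, Good (fun p => U p j))
    (hc : HasCompactSupport U) : Effective U := by
  classical
  have hs : ContDiff ℝ ∞ U := contDiff_pi.2 fun j => (hU j).smooth
  obtain ⟨r, hr⟩ := hc.isCompact.isBounded.subset_closedBall 0
  obtain ⟨R, hR⟩ := exists_nat_ge r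
  have hzero : ∀ x : X, ¬ ‖x‖ ≤ R → ∀ j, (fun p => U p j) =ᶠ[𝓝 x] fun _ => 0 := by
    intro x hx j
    have : x ∉ tsupport U := fun h => hx (by
      have := hr h
      rw [mem_closedBall_zero_iff] at this
      linarith)
    filter_upwards [notMem_tsupport_iff_eventuallyEq.1 this] with p hp
    simp [hp]
  have key : ∀ j, ∃ (E : List (Fin 4) × QX × ℕ → ℚ) (B : ℕ → ℕ), Primrec E ∧ Primrec B ∧
      (∀ ds q n, |md ds (fun p => U p j) (incl q) - E (ds, q, n)| ≤ 1 / ((n : ℝ) + 1)) ∧
      ∀ ds x, |md ds (fun p => U p j) x| ≤ B ds.length := by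
    intro j
    obtain ⟨B, hB, hB'⟩ := (hU j).tame R
    obtain ⟨A, hA, hA'⟩ := (hU j).apx R
    have hB'' : ∀ k x, ‖iteratedFDeriv ℝ k (fun p => U p j) x‖ ≤ B k := by
      intro k x
      by_cases hx : ‖x‖ ≤ R
      · exact hB' k k le_rfl x hx
      · rw [((hzero x hx j).iteratedFDeriv ℝ k).eq_of_nhds]
        simp
    obtain ⟨E, hE, hE'⟩ := exists_md_approx (hU j).smooth hB hB''
      (A := fun z => if ‖incl z.1‖ ≤ R then A z else 0)
      (Primrec.ite ((primrecPred_ball R).comp Primrec.fst) hA (Primrec.const 0)) (fun q n => by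
        by_cases hq : ‖incl q‖ ≤ R
        · simpa [hq] using hA' q n hq
        · have : U (incl q) j = 0 := (hzero _ hq j).eq_of_nhds
          simp [hq, this]
          positivity)
    exact ⟨E, B, hE, hB, hE', fun ds x => (abs_md_le ds (hU j).smooth x).trans (hB'' _ x)⟩
  choose E B hE hB hE' hB' using key
  refine ⟨fun z j => E j z, fun ds => B 0 ds.length + B 1 ds.length + B 2 ds.length, ?_, ?_, ?_, ?_⟩
  · exact (Primrec.fin_curry.2 (Primrec₂.swap (Primrec.fin_curry₁.2 hE))).to_comp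
  · exact (Primrec.nat_add.comp (Primrec.nat_add.comp ((hB 0).comp Primrec.list_length)
      ((hB 1).comp Primrec.list_length)) ((hB 2).comp Primrec.list_length)).to_comp
  · intro ds t q n j
    have := hE' j ds (t, q) n
    rw [← mixedDeriv_apply ds hs j] at this
    exact this
  · intro ds p j
    have := hB' j ds p
    rw [← mixedDeriv_apply ds hs j] at this
    refine le_trans this ?_
    have h : B j ds.length ≤ B 0 ds.length + B 1 ds.length + B 2 ds.length := by
      fin_cases j <;> simp <;> omega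
    exact_mod_cast h

end Crest.Agent.R126
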