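import Crest.Agent.R126.FinDiff

/-!
Global solutions for compactly supported fields, and divergence-free fields from two potentials.
-/

set_option autoImplicit false

namespace Crest.Agent.R126

open scoped ContDiff Topology NNReal
open Crest.AnalysisR.BoxFlow

theorem exists_global_solution {U : Field} (hU : ContDiff ℝ ∞ U) (hc : HasCompactSupport U)
    (hz : ∀ p : X, p.1 ∉ Set.Icc (1 / 4 : ℝ) (3 / 4) → U p = 0) (x : Fin 3 → ℝ) :
    ∃ γ : ℝ → Fin 3 → ℝ, γ 0 = x ∧ ∀ t, HasDerivAt γ (U (t, γ t)) t := by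
  obtain ⟨K, hK⟩ := ContDiff.lipschitzWith_of_hasCompactSupport hc hU (by simp)
  obtain ⟨L, hL⟩ := hc.exists_bound_of_continuous hU.continuous
  have hL0 : 0 ≤ L := (norm_nonneg _).trans (hL 0)
  have hpl : IsPicardLindelof (fun t y => U (t, y)) (tmin := 0) (tmax := 1) ⟨0, by simp⟩ x
      ⟨L, hL0⟩ 0 ⟨L, hL0⟩ K :=
    { lipschitzOnWith := fun t _ => by
        have := hK.comp (LipschitzWith.prodMk_left t)
        rw [mul_one] at this
        exact this.lipschitzOnWith
      continuousOn := fun y _ => (hU.continuous.comp (by fun_prop)).continuousOn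
      norm_le := fun t _ y _ => hL _
      mul_max_le := by simp }
  obtain ⟨α, hα0, hα⟩ := hpl.exists_eq_forall_mem_Icc_hasDerivWithinAt₀
  let γ : ℝ → Fin 3 → ℝ := fun t => α (max 0 (min t 1))
  refine ⟨γ, by simpa [γ] using hα0, fun t => ?_⟩
  have h1 : HasDerivWithinAt γ (U (t, γ t)) (Set.Iic 0) t := by
    by_cases ht : t ∈ Set.Iic (0 : ℝ)
    · rw [hz _ (fun h => by have := h.1; have := Set.mem_Iic.1 ht; linarith)]
      have key : ∀ s ∈ Set.Iic (0 : ℝ), γ s = α 0 := fun s hs => by
        simp only [γ]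
        rw [max_eq_left (min_le_of_left_le hs)]
      exact (hasDerivWithinAt_const t _ (α 0)).congr key (key t ht)
    · exact HasFDerivWithinAt.of_notMem_closure (by rwa [closure_Iic])
  have h2 : HasDerivWithinAt γ (U (t, γ t)) (Set.Icc 0 1) t := by
    by_cases ht : t ∈ Set.Icc (0 : ℝ) 1
    · have key : ∀ s ∈ Set.Icc (0 : ℝ) 1, γ s = α s := fun s hs => by
        simp only [γ]
        rw [min_eq_left hs.2, max_eq_right hs.1]
      rw [key t ht]
      exact (hα t ht).congr key (key t ht)
    · exact HasFDerivWithinAt.of_notMem_closure (by rwa [closure_Icc])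
  have h3 : HasDerivWithinAt γ (U (t, γ t)) (Set.Ici 1) t := by
    by_cases ht : t ∈ Set.Ici (1 : ℝ)
    · rw [hz _ (fun h => by have := h.2; have := Set.mem_Ici.1 ht; linarith)]
      have key : ∀ s ∈ Set.Ici (1 : ℝ), γ s = α 1 := fun s hs => by
        simp only [γ]
        rw [min_eq_right hs, max_eq_right zero_le_one]
      exact (hasDerivWithinAt_const t _ (α 1)).congr key (key t ht)
    · exact HasFDerivWithinAt.of_notMem_closure (by rwa [closure_Ici])
  have h4 := (h1.union h2).union h3
  rwa [Set.Iic_union_Icc_eq_Iic zero_le_one, Set.Iic_union_Ici, hasDerivWithinAt_univ] at h4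

theorem pd_comm (d e : Fin 4) {f : X → ℝ} (hf : ContDiff ℝ ∞ f) :
    pd d (pd e f) = pd e (pd d f) := by
  funext p
  have hs : IsSymmSndFDerivAt ℝ f p :=
    hf.contDiffAt.isSymmSndFDerivAt (by simpa using natCast_le_infty 2)
  have hd : DifferentiableAt ℝ (fderiv ℝ f) p :=
    (hf.fderiv_right (m := ∞) (by simp)).differentiable (by simp) p
  have key : ∀ a b : Fin 4, pd a (pd b f) p =
      fderiv ℝ (fderiv ℝ f) p (direction a) (direction b) := by
    intro a b
    simp only [pd]
    rw [show (pd b f) = fun q => fderiv ℝ f q (direction b) from rfl,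
      fderiv_clm_apply hd (differentiableAt_const _)]
    simp
  rw [key, key]
  exact hs _ _

theorem direction_succ (j : Fin 3) : direction j.succ = (0, Pi.single j 1) := by
  simp [direction]

/-- The divergence-free field attached to two potentials. -/
noncomputable def curlField (P Q : X → ℝ) : Field :=
  fun p => ![pd 3 P p, pd 3 Q p, -pd 1 P p - pd 2 Q p]

theorem curlField_good {P Q : X → ℝ} (hP : Good P) (hQ : Good Q) (j : Fin 3) :
    Good (fun p => curlField P Q p j) := by
  fin_cases j
  · exact hP.pd 3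
  · exact hQ.pd 3
  · exact (hP.pd 1).neg.sub (hQ.pd 2)

theorem curlField_smooth {P Q : X → ℝ} (hP : Good P) (hQ : Good Q) :
    ContDiff ℝ ∞ (curlField P Q) :=
  contDiff_pi.2 fun j => (curlField_good hP hQ j).smooth

theorem spaceDiv_curlField {P Q : X → ℝ} (hP : Good P) (hQ : Good Q) (p : X) :
    spaceDiv (curlField P Q) p = 0 := by
  have hd := (curlField_smooth hP hQ).differentiable (by simp) p
  have key : ∀ j : Fin 3, fderiv ℝ (curlField P Q) p (0, Pi.single j 1) j =
      pd j.succ (fun q => curlField P Q q j) p := by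
    intro j
    rw [pd, fderiv_apply hd j, direction_succ]
    rfl
  rw [spaceDiv, Fin.sum_univ_three, key, key, key]
  have e0 : (fun q => curlField P Q q 0) = pd 3 P := rfl
  have e1 : (fun q => curlField P Q q 1) = pd 3 Q := rfl
  have e2 : (fun q => curlField P Q q 2) = fun q => -pd 1 P q - pd 2 Q q := rfl
  rw [e0, e1, e2]
  have h1 : DifferentiableAt ℝ (pd 1 P) p := (hP.pd 1).smooth.differentiable (by simp) p
  have h2 : DifferentiableAt ℝ (pd 2 Q) p := (hQ.pd 2).smooth.differentiable (by simp) p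
  have e3 : pd (Fin.succ 2) (fun q => -pd 1 P q - pd 2 Q q) p =
      -pd 3 (pd 1 P) p - pd 3 (pd 2 Q) p := by
    have := (h1.hasFDerivAt.neg.sub h2.hasFDerivAt).fderiv
    rw [pd, show (fun q => -pd 1 P q - pd 2 Q q) = -pd 1 P - pd 2 Q from rfl, this]
    rfl
  rw [e3, pd_comm 3 1 hP.smooth, pd_comm 3 2 hQ.smooth]
  change pd 1 (pd 3 P) p + pd 2 (pd 3 Q) p + _ = 0
  ring

theorem pd_congr (d : Fin 4) {f g : X → ℝ} {p : X} (h : f =ᶠ[𝓝 p] g) : pd d f p = pd d g p := by
  rw [pd, pd, h.fderiv_eq]

theorem curlField_congr {P Q P' Q' : X → ℝ} {p : X} (hP : P =ᶠ[𝓝 p] P') (hQ : Q =ᶠ[𝓝 p] Q') :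
    curlField P Q p = curlField P' Q' p := by
  simp only [curlField, pd_congr _ hP, pd_congr _ hQ]

theorem curlField_zero (p : X) : curlField (fun _ => 0) (fun _ => 0) p = 0 := by
  funext j
  fin_cases j <;> simp [curlField, pd]

theorem pd_succ_eq {f : X → ℝ} (hf : ContDiff ℝ ∞ f) (j : Fin 3) (p : X) (A B : ℝ)
    (h : ∀ s : ℝ, f (p.1, p.2 + Pi.single j s) = A + B * s) : pd j.succ f p = B := by
  have h1 := hasDerivAt_line j.succ hf p 0
  have h2 : (fun s : ℝ => f (p + s • direction j.succ)) = fun s => A + B * s := by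
    funext s
    rw [← h s, direction_succ]
    congr 1
    ext l
    · simp
    · simp only [Prod.snd_add, Prod.smul_mk, Pi.add_apply, Pi.smul_apply, Pi.single_apply,
        smul_eq_mul]
      split_ifs <;> simp
  rw [h2, zero_smul, add_zero] at h1
  have h3 : HasDerivAt (fun s : ℝ => A + B * s) B 0 := by
    simpa using ((hasDerivAt_id (0 : ℝ)).const_mul B).const_add A
  exact h1.unique h3

/-- Good functions of time alone. -/
def GoodT (c : ℝ → ℝ) : Prop := Good (fun p : X => c p.1)

theorem GoodT.smooth {c : ℝ → ℝ} (hc : GoodT c) : ContDiff ℝ ∞ c :=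
  (Good.smooth hc).comp (f := fun t : ℝ => ((t, 0) : X)) (by fun_prop)

theorem GoodT.deriv {c : ℝ → ℝ} (hc : GoodT c) : GoodT (deriv c) := by
  refine (Good.pd hc 0).congr fun p => ?_
  have h1 := hasDerivAt_line 0 (Good.smooth hc) p 0
  have h2 : HasDerivAt (fun s : ℝ => c (p.1 + s)) (_root_.deriv c p.1) 0 := by
    have := (hc.smooth.differentiable (by simp) (p.1 + 0)).hasDerivAt.comp_const_add p.1 0
    simpa using this
  have h3 : (fun s : ℝ => c (p + s • direction 0).1) = fun s => c (p.1 + s) := by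
    funext s; simp [direction]
  rw [h3, zero_smul, add_zero] at h1
  exact h1.unique h2

end Crest.Agent.R126
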