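import Mathlib

/-!
Explicit estimates for `expNegInvGlue`: bounds on all derivatives and a uniform rational
approximation.
-/

set_option autoImplicit false

namespace Crest.Agent.R126

open scoped ContDiff Nat
open Polynomial

/-- `x ↦ x⁻¹ ^ j * exp (-1/x)` (zero for `x ≤ 0`). -/
noncomputable def gl (j : ℕ) (x : ℝ) : ℝ := x⁻¹ ^ j * expNegInvGlue x

theorem gl_zero : gl 0 = expNegInvGlue := by
  funext x; simp [gl]

theorem gl_contDiff (j : ℕ) {n : ℕ∞} : ContDiff ℝ n (gl j) := by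
  have := expNegInvGlue.contDiff_polynomial_eval_inv_mul (n := n) (X ^ j)
  have h1 : (fun x : ℝ ↦ (X ^ j : ℝ[X]).eval x⁻¹ * expNegInvGlue x) = gl j := by
    funext y; simp [gl]
  rwa [h1] at this

theorem gl_deriv (j : ℕ) : deriv (gl j) = fun x => gl (j + 2) x - j * gl (j + 1) x := by
  funext x
  have h := expNegInvGlue.hasDerivAt_polynomial_eval_inv_mul (X ^ j) x
  have h1 : (fun x : ℝ ↦ (X ^ j : ℝ[X]).eval x⁻¹ * expNegInvGlue x) = gl j := by
    funext y; simp [gl]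
  rw [h1] at h
  rw [h.deriv]
  simp only [gl, derivative_X_pow, eval_mul, eval_pow, eval_X, eval_sub, eval_C]
  cases j with
  | zero => simp
  | succ j => simp only [Nat.add_sub_cancel]; ring

theorem abs_gl_le (j : ℕ) (x : ℝ) : |gl j x| ≤ j ! := by
  rcases le_or_gt x 0 with hx | hx
  · simp [gl, expNegInvGlue.zero_of_nonpos hx]
  · have hy : 0 < x⁻¹ := inv_pos.2 hx
    have h := Real.pow_div_factorial_le_exp x⁻¹ hy.le j
    have hf : (0 : ℝ) < j ! := by positivity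
    rw [gl, expNegInvGlue, if_neg (not_le.2 hx), abs_of_nonneg (by positivity), Real.exp_neg,
      ← div_eq_mul_inv, div_le_iff₀ (Real.exp_pos _)]
    rw [div_le_iff₀ hf] at h
    linarith

theorem abs_iteratedDeriv_gl_le (k : ℕ) : ∀ (j : ℕ) (x : ℝ),
    |iteratedDeriv k (gl j) x| ≤ ((j + 2 * k + 1) ^ k * (j + 2 * k) ! : ℕ) := by
  induction k with
  | zero => intro j x; simpa using abs_gl_le j x
  | succ k ih =>
    intro j x
    rw [iteratedDeriv_succ', gl_deriv]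
    have h1 : ContDiffAt ℝ k (gl (j + 2)) x := (gl_contDiff (n := k) _).contDiffAt
    have h2 : ContDiffAt ℝ k (gl (j + 1)) x := (gl_contDiff (n := k) _).contDiffAt
    rw [iteratedDeriv_fun_sub h1 (contDiffAt_const.mul h2), iteratedDeriv_const_mul _ h2]
    have a1 := ih (j + 2) x
    have a2 := ih (j + 1) x
    have hle : ((j + 1 + 2 * k + 1) ^ k * (j + 1 + 2 * k) ! : ℕ) ≤
        (j + 2 + 2 * k + 1) ^ k * (j + 2 + 2 * k) ! := by gcongr <;> omega
    have hfin : ((j + 1) * ((j + 2 + 2 * k + 1) ^ k * (j + 2 + 2 * k) !) : ℕ) ≤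
        (j + 2 * (k + 1) + 1) ^ (k + 1) * (j + 2 * (k + 1)) ! := by
      rw [show j + 2 * (k + 1) = j + 2 + 2 * k by ring, pow_succ', mul_assoc]
      gcongr
      omega
    have hle' : (((j + 1 + 2 * k + 1) ^ k * (j + 1 + 2 * k) ! : ℕ) : ℝ) ≤
        (((j + 2 + 2 * k + 1) ^ k * (j + 2 + 2 * k) ! : ℕ) : ℝ) := by exact_mod_cast hle
    have hfin' : ((j : ℝ) + 1) * (((j + 2 + 2 * k + 1) ^ k * (j + 2 + 2 * k) ! : ℕ) : ℝ) ≤
        (((j + 2 * (k + 1) + 1) ^ (k + 1) * (j + 2 * (k + 1)) ! : ℕ) : ℝ) := by exact_mod_cast hfin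
    refine le_trans (abs_sub _ _) (le_trans ?_ hfin')
    rw [abs_mul, abs_of_nonneg (Nat.cast_nonneg j : (0 : ℝ) ≤ j)]
    have hj : (0 : ℝ) ≤ j := Nat.cast_nonneg j
    nlinarith [mul_le_mul_of_nonneg_left (a2.trans hle') hj]

theorem norm_iteratedFDeriv_glue_le (k i : ℕ) (hi : i ≤ k) (x : ℝ) :
    ‖iteratedFDeriv ℝ i expNegInvGlue x‖ ≤ ((2 * k + 1) ^ k * (2 * k) ! : ℕ) := by
  rw [norm_iteratedFDeriv_eq_norm_iteratedDeriv, ← gl_zero, Real.norm_eq_abs]
  refine (abs_iteratedDeriv_gl_le i 0 x).trans ?_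
  simp only [zero_add]
  exact_mod_cast (by gcongr; omega : (2 * i + 1) ^ i * (2 * i) ! ≤ (2 * k + 1) ^ k * (2 * k) !)

theorem glue_lipschitz (x y : ℝ) : |expNegInvGlue x - expNegInvGlue y| ≤ 6 * |x - y| := by
  have hd : Differentiable ℝ expNegInvGlue :=
    (expNegInvGlue.contDiff (n := 1)).differentiable (by simp)
  have hb : ∀ z, ‖deriv expNegInvGlue z‖ ≤ 6 := by
    intro z
    have := abs_iteratedDeriv_gl_le 1 0 z
    rw [gl_zero, iteratedDeriv_one] at this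
    simpa using this
  have := Convex.norm_image_sub_le_of_norm_deriv_le (s := Set.univ) (fun z _ => hd z)
    (fun z _ => hb z) convex_univ (Set.mem_univ y) (Set.mem_univ x)
  simpa using this

theorem pow_sub_pow_le_aux (a b : ℝ) (hb : 0 ≤ b) (hab : b ≤ a) (n : ℕ) :
    a ^ (n + 1) - b ^ (n + 1) ≤ (n + 1) * a ^ n * (a - b) := by
  induction n with
  | zero => simp
  | succ n ih =>
    have ha : 0 ≤ a := hb.trans hab
    have h1 : b ^ (n + 1) ≤ a ^ (n + 1) := pow_le_pow_left₀ hb hab _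
    have h2 : a ^ (n + 1 + 1) - b ^ (n + 1 + 1) =
        a * (a ^ (n + 1) - b ^ (n + 1)) + b ^ (n + 1) * (a - b) := by ring
    rw [h2]
    have h3 : a * (a ^ (n + 1) - b ^ (n + 1)) ≤ a * ((n + 1) * a ^ n * (a - b)) :=
      mul_le_mul_of_nonneg_left ih ha
    have h4 : b ^ (n + 1) * (a - b) ≤ a ^ (n + 1) * (a - b) :=
      mul_le_mul_of_nonneg_right h1 (sub_nonneg.2 hab)
    push_cast
    calc _ ≤ a * ((n + 1) * a ^ n * (a - b)) + a ^ (n + 1) * (a - b) := add_le_add h3 h4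
      _ = _ := by ring

theorem choose_two_le (u : ℝ) (hu : 0 ≤ u) (n : ℕ) :
    1 + n * u + (n * (n - 1) / 2 : ℝ) * u ^ 2 ≤ (1 + u) ^ n := by
  induction n with
  | zero => simp
  | succ n ih =>
    rw [pow_succ]
    have h1 : (1 + n * u + (n * (n - 1) / 2 : ℝ) * u ^ 2) * (1 + u) ≤ (1 + u) ^ n * (1 + u) :=
      mul_le_mul_of_nonneg_right ih (by linarith)
    refine le_trans ?_ h1
    have hn : (0 : ℝ) ≤ n * (n - 1) := by
      rcases Nat.eq_zero_or_pos n with h | h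
      · simp [h]
      · have : (1 : ℝ) ≤ n := by exact_mod_cast h
        nlinarith
    have : 0 ≤ (n * (n - 1) / 2 : ℝ) * u ^ 3 := by positivity
    push_cast
    nlinarith

/-- Uniform approximation of `exp (-y)` on `y ≥ 0` by `(1 + y/N)^(-N)`. -/
theorem exp_neg_approx (u : ℝ) (hu : 0 ≤ u) (n : ℕ) :
    |Real.exp (-(((n + 2 : ℕ) : ℝ) * u)) - (1 + u)⁻¹ ^ (n + 2)| ≤ 2 / (n + 1) := by
  have h1u : 0 < 1 + u := by linarith
  set a := (1 + u)⁻¹ with ha
  set b := Real.exp (-u) with hb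
  have hb0 : 0 ≤ b := (Real.exp_pos _).le
  have hba : b ≤ a := by
    rw [hb, ha, Real.exp_neg]
    exact inv_anti₀ h1u (by linarith [Real.add_one_le_exp u])
  have hb1 : 1 - u ≤ b := by linarith [Real.add_one_le_exp (-u)]
  have he : Real.exp (-(((n + 2 : ℕ) : ℝ) * u)) = b ^ (n + 2) := by
    rw [hb, ← Real.exp_nat_mul]; congr 1; ring
  rw [he, abs_sub_comm, abs_of_nonneg (sub_nonneg.2 (pow_le_pow_left₀ hb0 hba _))]
  have h2 := pow_sub_pow_le_aux a b hb0 hba (n + 1)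
  have ha0 : 0 < a := inv_pos.2 h1u
  have hau : a * (1 + u) = 1 := inv_mul_cancel₀ h1u.ne'
  have h3 : a - b ≤ a * u ^ 2 := by nlinarith
  have h4 := choose_two_le u hu (n + 2)
  have h5 : a ^ (n + 2) * (1 + u) ^ (n + 2) = 1 := by rw [← mul_pow, hau, one_pow]
  have hn : (0 : ℝ) < n + 1 := by positivity
  have hpos : 0 < a ^ (n + 2) := pow_pos ha0 _
  have h6 : a ^ (n + 2) * (((n + 2 : ℝ) * (n + 1) / 2) * u ^ 2) ≤ 1 := by
    refine le_trans (mul_le_mul_of_nonneg_left (le_trans ?_ h4) hpos.le) h5.le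
    push_cast
    have : (0 : ℝ) ≤ (n + 2) * u := by positivity
    nlinarith
  rw [le_div_iff₀ hn]
  have h7 : a ^ (n + 1 + 1) - b ^ (n + 1 + 1) ≤ (n + 2) * (a ^ (n + 2) * u ^ 2) := by
    refine h2.trans ?_
    push_cast
    calc ((n : ℝ) + 1 + 1) * a ^ (n + 1) * (a - b)
        ≤ ((n : ℝ) + 1 + 1) * a ^ (n + 1) * (a * u ^ 2) := by gcongr
      _ = _ := by ring
  calc (a ^ (n + 2) - b ^ (n + 2)) * (n + 1) ≤ (n + 2) * (a ^ (n + 2) * u ^ 2) * (n + 1) := by
        gcongr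
    _ = 2 * (a ^ (n + 2) * (((n + 2 : ℝ) * (n + 1) / 2) * u ^ 2)) := by ring
    _ ≤ 2 := by linarith

/-- Rational approximation of the glue function. -/
def glueApx (x : ℚ) (n : ℕ) : ℚ :=
  if x ≤ 0 then 0 else (1 + (((n + 2 : ℕ) : ℚ) * x)⁻¹)⁻¹ ^ (n + 2)

theorem glueApx_spec (x : ℚ) (n : ℕ) :
    |expNegInvGlue x - (glueApx x n : ℝ)| ≤ 2 / (n + 1) := by
  unfold glueApx expNegInvGlue
  by_cases hx : x ≤ 0
  · have hx' : (x : ℝ) ≤ 0 := by exact_mod_cast hx
    simp only [hx, hx', if_true]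
    simp; positivity
  · have hx' : ¬ (x : ℝ) ≤ 0 := by exact_mod_cast hx
    simp only [hx, hx', if_false]
    have hx0 : (0 : ℝ) < x := not_le.1 hx'
    have := exp_neg_approx ((((n + 2 : ℕ) : ℝ) * x)⁻¹) (by positivity) n
    have h2 : ((n + 2 : ℕ) : ℝ) * (((n + 2 : ℕ) : ℝ) * x)⁻¹ = (x : ℝ)⁻¹ := by
      field_simp
    rw [h2] at this
    push_cast at this ⊢
    exact this

theorem glue_denom_ge (x : ℝ) : (1 / 9 : ℝ) ≤ expNegInvGlue x + expNegInvGlue (1 - x) := by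
  have h : (1 / 9 : ℝ) ≤ expNegInvGlue (1 / 2) := by
    rw [expNegInvGlue, if_neg (by norm_num), show -(1 / 2 : ℝ)⁻¹ = -(1 + 1) by norm_num,
      Real.exp_neg, Real.exp_add, one_div]
    have := Real.exp_one_lt_d9
    have h0 := Real.exp_pos 1
    exact inv_anti₀ (by positivity) (by nlinarith)
  rcases le_total x (1 / 2) with hx | hx
  · have := expNegInvGlue.monotone (show (1 / 2 : ℝ) ≤ 1 - x by linarith)
    linarith [expNegInvGlue.nonneg x]
  · have := expNegInvGlue.monotone hx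
    linarith [expNegInvGlue.nonneg (1 - x)]

end Crest.Agent.R126
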