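import Crest.Prelude.Def_BoxFlow
import Crest.Agent.Lib.Computability.RatPrimrec
import Crest.Agent.R126.Glue

/-!
A class of smooth scalar functions on space-time with primitive recursive bounds for all
derivatives on balls and primitive recursive rational approximations at rational points.
-/

set_option autoImplicit false

namespace Crest.Agent.R126

open scoped ContDiff Nat
open Crest.AnalysisR.BoxFlow Crest.Agent.Lib.Computability

/-- Space-time. -/
abbrev X : Type := ℝ × (Fin 3 → ℝ)

/-- Rational space-time points. -/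
abbrev QX : Type := ℚ × (Fin 3 → ℚ)

/-- The inclusion of rational points. -/
def incl (q : QX) : X := ((q.1 : ℝ), ratPoint q.2)

/-- Primitive recursive bounds for all derivatives on every ball. -/
def Tame (f : X → ℝ) : Prop :=
  ∀ R : ℕ, ∃ B : ℕ → ℕ, Primrec B ∧
    ∀ k i, i ≤ k → ∀ x : X, ‖x‖ ≤ R → ‖iteratedFDeriv ℝ i f x‖ ≤ B k

/-- Primitive recursive approximation at the rational points of every ball. -/
def Apx (f : X → ℝ) : Prop :=
  ∀ R : ℕ, ∃ A : QX × ℕ → ℚ, Primrec A ∧
    ∀ q n, ‖incl q‖ ≤ R → |f (incl q) - A (q, n)| ≤ 1 / ((n : ℝ) + 1)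

/-- Smooth, tame and approximable. -/
structure Good (f : X → ℝ) : Prop where
  smooth : ContDiff ℝ ∞ f
  tame : Tame f
  apx : Apx f

theorem Tame.bound0 {f : X → ℝ} (hf : Tame f) (R : ℕ) :
    ∃ M : ℕ, ∀ x : X, ‖x‖ ≤ R → |f x| ≤ M := by
  obtain ⟨B, -, hB⟩ := hf R
  exact ⟨B 0, fun x hx => by simpa using hB 0 0 le_rfl x hx⟩

theorem natCast_le_infty (i : ℕ) : (i : WithTop ℕ∞) ≤ ∞ := by exact_mod_cast le_top

theorem Good.const (c : ℚ) : Good (fun _ => (c : ℝ)) where
  smooth := contDiff_const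
  tame := fun R => ⟨fun _ => ⌈|(c : ℝ)|⌉₊, Primrec.const _, fun k i _ x _ => by
    rcases Nat.eq_zero_or_pos i with rfl | hi
    · rw [norm_iteratedFDeriv_zero]; exact Nat.le_ceil _
    · rw [iteratedFDeriv_const_of_ne hi.ne']; simp⟩
  apx := fun R => ⟨fun _ => c, Primrec.const _, fun q n _ => by simp; positivity⟩

theorem tame_clm (L : X →L[ℝ] ℝ) (hL : ‖L‖ ≤ 1) : Tame L := fun R =>
  ⟨fun _ => R + 1, Primrec.const _, fun k i _ x hx => by
    push_cast
    rcases i with _ | i
    · rw [norm_iteratedFDeriv_zero]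
      calc ‖L x‖ ≤ ‖L‖ * ‖x‖ := L.le_opNorm x
        _ ≤ 1 * R := by gcongr
        _ ≤ R + 1 := by linarith
    · rw [← norm_iteratedFDeriv_fderiv]
      have : fderiv ℝ L = fun _ => L := by funext y; exact L.fderiv
      rw [this]
      have hR : (0 : ℝ) ≤ R := Nat.cast_nonneg R
      rcases Nat.eq_zero_or_pos i with rfl | hi
      · rw [norm_iteratedFDeriv_zero]; linarith
      · rw [iteratedFDeriv_const_of_ne hi.ne']; simp; linarith⟩

theorem Good.time : Good (fun p => p.1) where
  smooth := contDiff_fst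
  tame := tame_clm (ContinuousLinearMap.fst ℝ ℝ (Fin 3 → ℝ)) (ContinuousLinearMap.norm_fst_le ..)
  apx := fun R => ⟨fun z => z.1.1, Primrec.fst.comp Primrec.fst, fun q n _ => by
    simp [incl]; positivity⟩

theorem primrec_coord (j : Fin 3) : Primrec (fun q : QX => q.2 j) :=
  Primrec.fin_app.comp Primrec.snd (Primrec.const j)

theorem Good.space (j : Fin 3) : Good (fun p => p.2 j) where
  smooth := (contDiff_apply ℝ ℝ j).comp contDiff_snd
  tame := tame_clm ((ContinuousLinearMap.proj j).comp (ContinuousLinearMap.snd ℝ ℝ (Fin 3 → ℝ)))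
    (ContinuousLinearMap.opNorm_le_bound _ zero_le_one fun x => by
      simpa using (norm_le_pi_norm x.2 j).trans (norm_snd_le x))
  apx := fun R => ⟨fun z => z.1.2 j, (primrec_coord j).comp Primrec.fst, fun q n _ => by
    simp [incl, ratPoint]; positivity⟩

theorem Good.add {f g : X → ℝ} (hf : Good f) (hg : Good g) : Good (fun p => f p + g p) where
  smooth := hf.smooth.add hg.smooth
  tame := fun R => by
    obtain ⟨B, hB, hB'⟩ := hf.tame R
    obtain ⟨C, hC, hC'⟩ := hg.tame R
    refine ⟨fun k => B k + C k, Primrec.nat_add.comp hB hC, fun k i hi x hx => ?_⟩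
    rw [fun_iteratedFDeriv_add_apply (hf.smooth.contDiffAt.of_le (natCast_le_infty i))
      (hg.smooth.contDiffAt.of_le (natCast_le_infty i))]
    push_cast
    exact (norm_add_le _ _).trans (add_le_add (hB' k i hi x hx) (hC' k i hi x hx))
  apx := fun R => by
    obtain ⟨A, hA, hA'⟩ := hf.apx R
    obtain ⟨C, hC, hC'⟩ := hg.apx R
    have hm : Primrec (fun z : QX × ℕ => (z.1, 2 * z.2 + 1)) :=
      Primrec.fst.pair (Primrec.nat_double_succ.comp Primrec.snd)
    refine ⟨fun z => A (z.1, 2 * z.2 + 1) + C (z.1, 2 * z.2 + 1),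
      rat_add.comp (hA.comp hm) (hC.comp hm), fun q n hq => ?_⟩
    have h1 := hA' q (2 * n + 1) hq
    have h2 := hC' q (2 * n + 1) hq
    push_cast at h1 h2 ⊢
    have h3 : 1 / (2 * (n : ℝ) + 1 + 1) + 1 / (2 * (n : ℝ) + 1 + 1) = 1 / (n + 1) := by
      field_simp; ring
    rw [← h3]
    refine le_trans (le_of_eq ?_) ((abs_add_le _ _).trans (add_le_add h1 h2))
    congr 1; ring

theorem Good.mul {f g : X → ℝ} (hf : Good f) (hg : Good g) : Good (fun p => f p * g p) where
  smooth := hf.smooth.mul hg.smooth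
  tame := fun R => by
    obtain ⟨B, hB, hB'⟩ := hf.tame R
    obtain ⟨C, hC, hC'⟩ := hg.tame R
    refine ⟨fun k => 2 ^ k * (B k * C k), Primrec.nat_mul.comp
      (nat_pow.comp (Primrec.const 2) Primrec.id) (Primrec.nat_mul.comp hB hC),
      fun k i hi x hx => ?_⟩
    refine (norm_iteratedFDeriv_mul_le hf.smooth hg.smooth x (natCast_le_infty i)).trans ?_
    calc ∑ j ∈ Finset.range (i + 1), (i.choose j : ℝ) * ‖iteratedFDeriv ℝ j f x‖ *
            ‖iteratedFDeriv ℝ (i - j) g x‖
        ≤ ∑ j ∈ Finset.range (i + 1), (i.choose j : ℝ) * (B k * C k) := by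
          refine Finset.sum_le_sum fun j hj => ?_
          rw [mul_assoc]
          have hj' : j ≤ k := by have := Finset.mem_range.1 hj; omega
          gcongr
          · exact hB' k j hj' x hx
          · exact hC' k _ (by omega) x hx
      _ = 2 ^ i * (B k * C k) := by
          rw [← Finset.sum_mul]
          congr 1
          exact_mod_cast Nat.sum_range_choose i
      _ ≤ _ := by
          push_cast
          gcongr
          norm_num
  apx := fun R => by
    obtain ⟨A, hA, hA'⟩ := hf.apx R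
    obtain ⟨C, hC, hC'⟩ := hg.apx R
    obtain ⟨M, hM⟩ := hf.tame.bound0 R
    obtain ⟨N, hN⟩ := hg.tame.bound0 R
    have hm : Primrec (fun z : QX × ℕ => (z.1, (M + N + 1) * (z.2 + 1))) :=
      Primrec.fst.pair (Primrec.nat_mul.comp (Primrec.const _) (Primrec.succ.comp Primrec.snd))
    refine ⟨fun z => A (z.1, (M + N + 1) * (z.2 + 1)) * C (z.1, (M + N + 1) * (z.2 + 1)),
      rat_mul.comp (hA.comp hm) (hC.comp hm), fun q n hq => ?_⟩
    have h1 := hA' q ((M + N + 1) * (n + 1)) hq
    have h2 := hC' q ((M + N + 1) * (n + 1)) hq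
    have h3 := hM _ hq
    have h4 := hN _ hq
    push_cast at h1 h2 ⊢
    set a : ℝ := ((A (q, (M + N + 1) * (n + 1)) : ℚ) : ℝ)
    set c : ℝ := ((C (q, (M + N + 1) * (n + 1)) : ℚ) : ℝ)
    set δ : ℝ := 1 / (((M : ℝ) + N + 1) * (n + 1) + 1) with hδ
    have hδ1 : δ ≤ 1 := by
      rw [hδ, div_le_one (by positivity)]
      have : (0 : ℝ) ≤ ((M : ℝ) + N + 1) * (n + 1) := by positivity
      linarith
    have hδ0 : 0 ≤ δ := by positivity
    have hc : |c| ≤ N + 1 := by
      have : |c| ≤ |g (incl q)| + |g (incl q) - c| := by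
        have := abs_sub (g (incl q)) (g (incl q) - c)
        simpa using this
      linarith
    have h5 : f (incl q) * g (incl q) - a * c =
        f (incl q) * (g (incl q) - c) + (f (incl q) - a) * c := by ring
    rw [h5]
    calc _ ≤ |f (incl q)| * |g (incl q) - c| + |f (incl q) - a| * |c| := by
          rw [← abs_mul, ← abs_mul]; exact abs_add_le _ _
      _ ≤ M * δ + δ * (N + 1) := by gcongr
      _ = ((M : ℝ) + N + 1) / (((M : ℝ) + N + 1) * (n + 1) + 1) := by rw [hδ]; ring
      _ ≤ 1 / (n + 1) := by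
          rw [div_le_div_iff₀ (by positivity) (by positivity)]
          linarith

theorem Good.congr {f g : X → ℝ} (hf : Good f) (h : ∀ p, f p = g p) : Good g := by
  rwa [← funext h]

theorem Good.neg {f : X → ℝ} (hf : Good f) : Good (fun p => -f p) :=
  ((Good.const (-1)).mul hf).congr fun p => by simp

theorem Good.sub {f g : X → ℝ} (hf : Good f) (hg : Good g) : Good (fun p => f p - g p) :=
  (hf.add hg.neg).congr fun p => by simp [sub_eq_add_neg]

theorem Good.natConst (c : ℕ) : Good (fun _ => (c : ℝ)) :=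
  (Good.const c).congr fun _ => by simp

theorem Good.one : Good (fun _ => (1 : ℝ)) :=
  (Good.const 1).congr fun _ => by simp

theorem Good.sum {ι : Type*} (s : Finset ι) {f : ι → X → ℝ} (hf : ∀ i ∈ s, Good (f i)) :
    Good (fun p => ∑ i ∈ s, f i p) := by
  classical
  induction s using Finset.induction with
  | empty => exact (Good.const 0).congr fun _ => by simp
  | insert a s ha ih =>
    refine ((hf a (Finset.mem_insert_self _ _)).add
      (ih fun i hi => hf i (Finset.mem_insert_of_mem hi))).congr fun p => ?_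
    rw [Finset.sum_insert ha]

theorem Good.prod {ι : Type*} (s : Finset ι) {f : ι → X → ℝ} (hf : ∀ i ∈ s, Good (f i)) :
    Good (fun p => ∏ i ∈ s, f i p) := by
  classical
  induction s using Finset.induction with
  | empty => exact (Good.const 1).congr fun _ => by simp
  | insert a s ha ih =>
    refine ((hf a (Finset.mem_insert_self _ _)).mul
      (ih fun i hi => hf i (Finset.mem_insert_of_mem hi))).congr fun p => ?_
    rw [Finset.prod_insert ha]

theorem le_pow_aux {a : ℝ} {B i : ℕ} (h : a ≤ B) (hi : 1 ≤ i) : a ≤ ((B : ℝ) + 1) ^ i := by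
  have hB : (0 : ℝ) ≤ B := Nat.cast_nonneg B
  calc a ≤ ((B : ℝ) + 1) ^ 1 := by rw [pow_one]; linarith
    _ ≤ _ := pow_le_pow_right₀ (by linarith) hi

theorem Good.inv {f : X → ℝ} (hf : Good f) (M : ℕ) (hM : ∀ p, 1 / ((M : ℝ) + 1) ≤ f p) :
    Good (fun p => (f p)⁻¹) := by
  have hpos : ∀ p, 0 < f p := fun p => lt_of_lt_of_le (by positivity) (hM p)
  refine ⟨hf.smooth.inv fun p => (hpos p).ne', fun R => ?_, fun R => ?_⟩
  · obtain ⟨B, hB, hB'⟩ := hf.tame R
    refine ⟨fun k => k ! * (k ! * (M + 1) ^ (k + 1)) * (B k + 1) ^ k,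
      Primrec.nat_mul.comp (Primrec.nat_mul.comp nat_factorial (Primrec.nat_mul.comp nat_factorial
        (nat_pow.comp (Primrec.const _) Primrec.succ)))
        (nat_pow.comp (Primrec.succ.comp hB) Primrec.id), fun k i hi x hx => ?_⟩
    have hg : ContDiffOn ℝ ∞ (fun y : ℝ => y⁻¹) (Set.Ioi 0) :=
      (contDiffOn_inv ℝ).mono fun y hy => ne_of_gt hy
    have h := norm_iteratedFDeriv_comp_le' (g := fun y : ℝ => y⁻¹) (f := f) (n := i)
      (t := Set.Ioi 0) (by rintro _ ⟨p, rfl⟩; exact hpos p) isOpen_Ioi.uniqueDiffOn hg hf.smooth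
      (natCast_le_infty i) x (C := k ! * (M + 1) ^ (k + 1)) (D := B k + 1) ?_ ?_
    · refine h.trans ?_
      push_cast
      have hB0 : (0 : ℝ) ≤ B k := Nat.cast_nonneg _
      gcongr
      linarith
    · intro j hj
      rw [iteratedFDerivWithin_of_isOpen j isOpen_Ioi (hpos x),
        norm_iteratedFDeriv_eq_norm_iteratedDeriv, iteratedDeriv_eq_iterate]
      have := iter_deriv_inv j (f x)
      rw [show (fun y : ℝ => y⁻¹) = Inv.inv from rfl, this]
      rw [norm_mul, norm_mul, norm_pow, norm_neg, norm_one, one_pow, one_mul, Real.norm_natCast,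
        show (-1 - j : ℤ) = -((j + 1 : ℕ) : ℤ) by push_cast; ring, zpow_neg, zpow_natCast,
        ← inv_pow, norm_pow, Real.norm_eq_abs, abs_of_pos (inv_pos.2 (hpos x))]
      have h1 : (f x)⁻¹ ≤ M + 1 := by
        have := hM x
        rw [one_div] at this
        exact inv_le_of_inv_le₀ (by positivity) this
      have h0 : 0 ≤ (f x)⁻¹ := (inv_pos.2 (hpos x)).le
      have hM0 : (0 : ℝ) ≤ M := Nat.cast_nonneg _
      calc (j ! : ℝ) * (f x)⁻¹ ^ (j + 1) ≤ k ! * ((M : ℝ) + 1) ^ (j + 1) := by
            gcongr; omega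
        _ ≤ _ := by gcongr; linarith; omega
    · intro j hj1 hj
      exact le_pow_aux (hB' k j (by omega) x hx) hj1
  · obtain ⟨A, hA, hA'⟩ := hf.apx R
    have hm : Primrec (fun z : QX × ℕ => (z.1, (M + 1) ^ 2 * (z.2 + 1))) :=
      Primrec.fst.pair (Primrec.nat_mul.comp (Primrec.const _) (Primrec.succ.comp Primrec.snd))
    refine ⟨fun z => (max (A (z.1, (M + 1) ^ 2 * (z.2 + 1))) (1 / ((M : ℚ) + 1)))⁻¹,
      rat_inv.comp (rat_max.comp (hA.comp hm) (Primrec.const _)), fun q n hq => ?_⟩
    have h1 := hA' q ((M + 1) ^ 2 * (n + 1)) hq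
    push_cast at h1 ⊢
    set a : ℝ := ((A (q, (M + 1) ^ 2 * (n + 1)) : ℚ) : ℝ)
    set m : ℝ := 1 / ((M : ℝ) + 1) with hm
    have hm0 : 0 < m := by positivity
    have h2 := hM (incl q)
    have h3 : m ≤ max a m := le_max_right _ _
    have h4 : |f (incl q) - max a m| ≤ |f (incl q) - a| := by
      rcases le_total a m with h | h
      · rw [max_eq_right h, abs_of_nonneg (by linarith), abs_of_nonneg (by linarith)]; linarith
      · rw [max_eq_left h]
    have h5 : 0 < f (incl q) := hpos _
    have h6 : 0 < max a m := by linarith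
    rw [inv_sub_inv h5.ne' h6.ne', abs_div, abs_sub_comm, abs_of_pos (mul_pos h5 h6)]
    calc _ ≤ (1 / (((M : ℝ) + 1) ^ 2 * (n + 1) + 1)) / (m * m) := by
          gcongr
          exact h4.trans h1
      _ = ((M : ℝ) + 1) ^ 2 / (((M : ℝ) + 1) ^ 2 * (n + 1) + 1) := by
          rw [hm]; field_simp
      _ ≤ 1 / (n + 1) := by
          rw [div_le_div_iff₀ (by positivity) (by positivity)]
          linarith

theorem primrec_glueApx : Primrec₂ glueApx := by
  have hn : Primrec (fun z : ℚ × ℕ => z.2 + 2) := Primrec.succ.comp (Primrec.succ.comp Primrec.snd)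
  exact (Primrec.ite (rat_le.comp Primrec.fst (Primrec.const 0)) (Primrec.const 0)
    (rat_pow.comp (rat_inv.comp (rat_add.comp (Primrec.const 1)
      (rat_inv.comp (rat_mul.comp (rat_natCast.comp hn) Primrec.fst)))) hn)).to₂

theorem Good.glue {f : X → ℝ} (hf : Good f) : Good (fun p => expNegInvGlue (f p)) := by
  refine ⟨expNegInvGlue.contDiff.comp hf.smooth, fun R => ?_, fun R => ?_⟩
  · obtain ⟨B, hB, hB'⟩ := hf.tame R
    refine ⟨fun k => k ! * ((2 * k + 1) ^ k * (2 * k) !) * (B k + 1) ^ k,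
      Primrec.nat_mul.comp (Primrec.nat_mul.comp nat_factorial (Primrec.nat_mul.comp
        (nat_pow.comp Primrec.nat_double_succ Primrec.id) (nat_factorial.comp Primrec.nat_double)))
        (nat_pow.comp (Primrec.succ.comp hB) Primrec.id), fun k i hi x hx => ?_⟩
    have h := norm_iteratedFDeriv_comp_le (g := expNegInvGlue) (f := f) (n := i)
      expNegInvGlue.contDiff hf.smooth
      (natCast_le_infty i) x (C := ((2 * k + 1) ^ k * (2 * k) ! : ℕ)) (D := B k + 1)
      (fun j hj => norm_iteratedFDeriv_glue_le k j (by omega) _)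
      (fun j hj1 hj => le_pow_aux (hB' k j (by omega) x hx) hj1)
    refine h.trans ?_
    push_cast
    have hB0 : (0 : ℝ) ≤ B k := Nat.cast_nonneg _
    gcongr
    linarith
  · obtain ⟨A, hA, hA'⟩ := hf.apx R
    have hm : Primrec (fun z : QX × ℕ => (z.1, 12 * (z.2 + 1))) :=
      Primrec.fst.pair (Primrec.nat_mul.comp (Primrec.const _) (Primrec.succ.comp Primrec.snd))
    refine ⟨fun z => glueApx (A (z.1, 12 * (z.2 + 1))) (4 * (z.2 + 1)),
      primrec_glueApx.comp (hA.comp hm)
        (Primrec.nat_mul.comp (Primrec.const _) (Primrec.succ.comp Primrec.snd)), fun q n hq => ?_⟩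
    have h1 := hA' q (12 * (n + 1)) hq
    have h2 := glueApx_spec (A (q, 12 * (n + 1))) (4 * (n + 1))
    have h3 := glue_lipschitz (f (incl q)) (A (q, 12 * (n + 1)))
    push_cast at h1 h2 ⊢
    refine (abs_sub_le _ (expNegInvGlue (A (q, 12 * (n + 1)))) _).trans ?_
    have h4 : 6 * (1 / (12 * ((n : ℝ) + 1) + 1)) ≤ 1 / (2 * (n + 1)) := by
      rw [← mul_div_assoc, div_le_div_iff₀ (by positivity) (by positivity)]
      linarith
    have h5 : 2 / (4 * ((n : ℝ) + 1) + 1) ≤ 1 / (2 * (n + 1)) := by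
      rw [div_le_div_iff₀ (by positivity) (by positivity)]
      linarith
    have h6 : 1 / (2 * ((n : ℝ) + 1)) + 1 / (2 * (n + 1)) = 1 / (n + 1) := by
      field_simp; ring
    linarith

theorem Good.step {f : X → ℝ} (hf : Good f) : Good (fun p => Real.smoothTransition (f p)) := by
  have h1 : Good (fun p => (expNegInvGlue (f p) + expNegInvGlue (1 - f p))⁻¹) :=
    (hf.glue.add (Good.one.sub hf).glue).inv 8 fun p => by
      have := glue_denom_ge (f p)
      norm_num at this ⊢
      exact this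
  exact (hf.glue.mul h1).congr fun p => by rw [Real.smoothTransition, div_eq_mul_inv]

end Crest.Agent.R126
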