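import Crest.Agent.R126.Construct

/-!
Existence of a collision-free motion plan: inflate the configuration of centres, and move the
centres along generic parabolic arcs.
-/

set_option autoImplicit false

namespace Crest.Agent.R126

open scoped ContDiff Topology
open Crest.AnalysisR.BoxFlow Real Filter

theorem exists_generic {ι : Type*} [Finite ι] (u v : ι → Fin 3 → ℚ) :
    ∃ w : Fin 3 → ℚ, ∀ (i : ι) (α β γ : ℝ),
      (∀ l, α * u i l + β * v i l + γ * w l = 0) → γ = 0 := by
  classical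
  have h1 : ∀ i, ∃ f : Module.Dual ℚ (Fin 3 → ℚ), f ≠ 0 ∧ f (u i) = 0 ∧ f (v i) = 0 := by
    intro i
    have hlt : Submodule.span ℚ ({u i, v i} : Set (Fin 3 → ℚ)) < ⊤ := by
      refine Submodule.lt_top_of_finrank_lt_finrank ?_
      have := finrank_span_finset_le_card (R := ℚ) ({u i, v i} : Finset (Fin 3 → ℚ))
      have h2 : ({u i, v i} : Finset (Fin 3 → ℚ)).card ≤ 2 := Finset.card_le_two
      rw [Set.finrank, Finset.coe_pair] at this
      simp only [Module.finrank_fintype_fun_eq_card, Fintype.card_fin]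
      omega
    obtain ⟨f, hf, hle⟩ := Submodule.exists_le_ker_of_lt_top _ hlt
    exact ⟨f, hf, hle (Submodule.subset_span (by simp)), hle (Submodule.subset_span (by simp))⟩
  choose f hf hu hv using h1
  obtain ⟨w, hw⟩ := Module.Dual.exists_forall_ne_zero_of_forall_exists f fun i => by
    by_contra hcon
    push Not at hcon
    exact hf i (LinearMap.ext hcon)
  refine ⟨w, fun i α β γ h => ?_⟩
  have key : ∀ x : Fin 3 → ℚ, ((f i x : ℚ) : ℝ) =
      ∑ l, (x l : ℝ) * (f i (fun j => if l = j then 1 else 0) : ℚ) := by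
    intro x
    rw [LinearMap.pi_apply_eq_sum_univ (f i) x]
    push_cast
    simp
  have h2 : α * (f i (u i) : ℚ) + β * (f i (v i) : ℚ) + γ * (f i w : ℚ) = 0 := by
    rw [key (u i), key (v i), key w, Finset.mul_sum, Finset.mul_sum, Finset.mul_sum,
      ← Finset.sum_add_distrib, ← Finset.sum_add_distrib]
    refine Finset.sum_eq_zero fun l _ => ?_
    linear_combination ((f i (fun j => if l = j then 1 else 0) : ℚ) : ℝ) * h l
  rw [hu, hv] at h2
  have h3 : ((f i w : ℚ) : ℝ) ≠ 0 := by exact_mod_cast hw i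
  simpa [h3] using h2

theorem exists_sep_of_disjoint {c c' h h' : Fin 3 → ℚ} (hh : ∀ l, 0 < h l) (hh' : ∀ l, 0 < h' l)
    (hd : Disjoint (box c h) (box c' h')) : ∃ l, (h l : ℝ) + h' l < |(c l : ℝ) - c' l| := by
  by_contra hcon
  push Not at hcon
  have hp : ∀ l, (0 : ℝ) < h l := fun l => by exact_mod_cast hh l
  have hp' : ∀ l, (0 : ℝ) < h' l := fun l => by exact_mod_cast hh' l
  refine (Set.disjoint_left.1 hd)
    (show (fun l => ((h' l : ℝ) * c l + h l * c' l) / (h l + h' l)) ∈ box c h from fun l => ?_)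
    (fun l => ?_)
  · have hs : (0 : ℝ) < h l + h' l := add_pos (hp l) (hp' l)
    have : ((h' l : ℝ) * c l + h l * c' l) / (h l + h' l) - c l =
        -(h l * (((c l : ℝ) - c' l) / (h l + h' l))) := by field_simp; ring
    simp only [this, abs_neg, abs_mul, abs_div, abs_of_pos (hp l), abs_of_pos hs]
    exact mul_le_of_le_one_right (hp l).le ((div_le_one hs).2 (hcon l))
  · have hs : (0 : ℝ) < h l + h' l := add_pos (hp l) (hp' l)
    have : ((h' l : ℝ) * c l + h l * c' l) / (h l + h' l) - c' l =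
        h' l * (((c l : ℝ) - c' l) / (h l + h' l)) := by field_simp; ring
    simp only [this, abs_mul, abs_div, abs_of_pos (hp' l), abs_of_pos hs]
    exact mul_le_of_le_one_right (hp' l).le ((div_le_one hs).2 (hcon l))

theorem eventually_sep {s G c : ℝ} (hc : 0 ≤ c) (hG : 0 ≤ G) (h : s < G ∨ 0 < c * G) :
    ∀ᶠ N : ℕ in atTop, s + 3 * (1 / ((N : ℝ) + 1)) < (1 + N * c) * G := by
  rcases h with h | h
  · have h1 : Tendsto (fun N : ℕ => s + 3 * (1 / ((N : ℝ) + 1))) atTop (𝓝 (s + 3 * 0)) :=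
      tendsto_const_nhds.add (tendsto_one_div_add_atTop_nhds_zero_nat.const_mul 3)
    filter_upwards [h1.eventually_lt_const (show s + 3 * 0 < G by linarith)] with N hN
    have : 0 ≤ (N : ℝ) * c * G := by positivity
    linarith
  · have h1 : Tendsto (fun N : ℕ => (N : ℝ) * (c * G)) atTop atTop :=
      tendsto_natCast_atTop_atTop.atTop_mul_const h
    filter_upwards [h1.eventually_gt_atTop (s + 3)] with N hN
    have : 1 / ((N : ℝ) + 1) ≤ 1 := by
      rw [div_le_one (by positivity)]; linarith [(Nat.cast_nonneg N : (0 : ℝ) ≤ N)]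
    linarith

/-- Linear interpolation between `1` and `ρ`. -/
def lin (ρ : ℚ) (τ : ℝ) : ℝ := 1 - τ + τ * ρ

theorem lin_ge {ρ : ℚ} {τ : ℝ} (h0 : 0 ≤ τ) (h1 : τ ≤ 1) : min 1 (ρ : ℝ) ≤ lin ρ τ := by
  have h2 := min_le_left 1 (ρ : ℝ)
  have h3 := min_le_right 1 (ρ : ℝ)
  unfold lin
  nlinarith

theorem lin_pos {ρ : ℚ} (hρ : 0 < ρ) {τ : ℝ} (h0 : 0 ≤ τ) (h1 : τ ≤ 1) : 0 < lin ρ τ :=
  lt_of_lt_of_le (lt_min one_pos (by exact_mod_cast hρ)) (lin_ge h0 h1)

/-- Determinant-one diagonal interpolation. -/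
noncomputable def dil (ρ : Fin 3 → ℚ) (l : Fin 3) (τ : ℝ) : ℝ :=
  ![lin (ρ 0) τ, lin (ρ 1) τ, (lin (ρ 0) τ * lin (ρ 1) τ)⁻¹] l

theorem dil_pos {ρ : Fin 3 → ℚ} (hρ : ∀ l, 0 < ρ l) (l : Fin 3) {τ : ℝ} (h0 : 0 ≤ τ) (h1 : τ ≤ 1) :
    0 < dil ρ l τ := by
  have a0 := lin_pos (hρ 0) h0 h1
  have a1 := lin_pos (hρ 1) h0 h1
  fin_cases l
  · exact a0
  · exact a1
  · exact inv_pos.2 (mul_pos a0 a1)

theorem dil_zero (ρ : Fin 3 → ℚ) (l : Fin 3) : dil ρ l 0 = 1 := by
  fin_cases l <;> simp [dil, lin]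

theorem dil_one {ρ : Fin 3 → ℚ} (hρ : ∏ l, ρ l = 1) (l : Fin 3) : dil ρ l 1 = ρ l := by
  rw [Fin.prod_univ_three] at hρ
  have h : (ρ 0 : ℝ) * ρ 1 * ρ 2 = 1 := by exact_mod_cast hρ
  fin_cases l
  · simp [dil, lin]
  · simp [dil, lin]
  · simp only [dil, lin, sub_self, one_mul, zero_add]
    exact inv_eq_of_mul_eq_one_right h

theorem continuous_dil {ρ : Fin 3 → ℚ} (hρ : ∀ l, 0 < ρ l) (l : Fin 3) :
    Continuous (fun τ : unitInterval => dil ρ l τ) := by
  have hl : ∀ r : ℚ, Continuous (fun τ : unitInterval => lin r τ) := fun r => by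
    unfold lin; fun_prop
  fin_cases l
  · exact hl _
  · exact hl _
  · exact ((hl _).mul (hl _)).inv₀ fun τ =>
      (mul_pos (lin_pos (hρ 0) τ.2.1 τ.2.2) (lin_pos (hρ 1) τ.2.1 τ.2.2)).ne'

/-- Parabolic arc from `a` to `b`. -/
def arc (a b w : ℚ) (τ : ℝ) : ℝ := (1 - τ) * a + τ * b + τ * (1 - τ) * w

/-- The time change. -/
noncomputable def theta (t : ℝ) : ℝ := smoothTransition (2 * t - 1 / 2)

theorem theta_nonneg (t : ℝ) : 0 ≤ theta t := smoothTransition.nonneg _

theorem theta_le_one (t : ℝ) : theta t ≤ 1 := smoothTransition.le_one _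

theorem theta_start {t : ℝ} (ht : t ≤ 1 / 4) : theta t = 0 :=
  smoothTransition.zero_of_nonpos (by linarith)

theorem theta_stop {t : ℝ} (ht : 3 / 4 ≤ t) : theta t = 1 :=
  smoothTransition.one_of_one_le (by linarith)

theorem good_theta : Good (fun p => theta p.1) :=
  (((Good.const 2).mul Good.time).sub (Good.const (1 / 2))).step.congr fun p => by
    simp [theta]

theorem good_lin (ρ : ℚ) : Good (fun p => lin ρ (theta p.1)) :=
  (Good.one.sub good_theta).add (good_theta.mul (Good.const ρ))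

theorem Good.inv' {f : X → ℝ} (hf : Good f) {ε : ℝ} (hε : 0 < ε) (h : ∀ p, ε ≤ f p) :
    Good (fun p => (f p)⁻¹) := by
  obtain ⟨M, hM⟩ := exists_nat_one_div_lt hε
  exact hf.inv M fun p => hM.le.trans (h p)

theorem good_lin_inv {ρ : ℚ} (hρ : 0 < ρ) : Good (fun p => (lin ρ (theta p.1))⁻¹) :=
  (good_lin ρ).inv' (lt_min one_pos (by exact_mod_cast hρ))
    fun _ => lin_ge (theta_nonneg _) (theta_le_one _)

theorem good_arc (a b w : ℚ) : Good (fun p => arc a b w (theta p.1)) :=
  (((Good.one.sub good_theta).mul (Good.const a)).add (good_theta.mul (Good.const b))).add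
    ((good_theta.mul (Good.one.sub good_theta)).mul (Good.const w))

theorem exists_plan (n : ℕ) (a b h k : Fin n → Fin 3 → ℚ)
    (hh : ∀ i j, 0 < h i j) (hk : ∀ i j, 0 < k i j)
    (ha : Pairwise fun i i' => Disjoint (box (a i) (h i)) (box (a i') (h i')))
    (hb : Pairwise fun i i' => Disjoint (box (b i) (k i)) (box (b i') (k i')))
    (hvol : ∀ i, ∏ j : Fin 3, k i j / h i j = 1) : Nonempty (Plan n a b h k) := by
  obtain ⟨w, hw⟩ := exists_generic (ι := Fin n × Fin n) (fun ij l => a ij.1 l - a ij.2 l)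
    (fun ij l => b ij.1 l - b ij.2 l)
  let ρ : Fin n → Fin 3 → ℚ := fun i l => k i l / h i l
  have hρ : ∀ i l, 0 < ρ i l := fun i l => div_pos (hk i l) (hh i l)
  let p : Fin n → Fin 3 → ℝ → ℝ := fun i l => arc (a i l) (b i l) ((i : ℕ) * w l)
  let S : ℕ → Set unitInterval := fun N => {τ | (∀ i l, dil (ρ i) l τ < N) ∧
    ∀ i j, i ≠ j → ∃ l, dil (ρ i) l τ * h i l + dil (ρ j) l τ * h j l + 3 * (1 / ((N : ℝ) + 1)) <
      (1 + N * (τ * (1 - τ))) * |p i l τ - p j l τ|}
  have hopen : ∀ N, IsOpen (S N) := by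
    intro N
    simp only [S, Set.ofPred_and, Set.ofPred_forall, Set.ofPred_exists]
    refine IsOpen.inter (isOpen_iInter_of_finite fun i => isOpen_iInter_of_finite fun l =>
      isOpen_lt (continuous_dil (hρ i) l) continuous_const)
      (isOpen_iInter_of_finite fun i => isOpen_iInter_of_finite fun j =>
        isOpen_iInter_of_finite fun _ => isOpen_iUnion fun l => isOpen_lt ?_ ?_)
    · exact (((continuous_dil (hρ i) l).mul continuous_const).add
        ((continuous_dil (hρ j) l).mul continuous_const)).add continuous_const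
    · simp only [p, arc]; fun_prop
  have hmono : Monotone S := by
    intro N M hNM τ hτ
    have hNM' : (N : ℝ) ≤ M := by exact_mod_cast hNM
    refine ⟨fun i l => (hτ.1 i l).trans_le hNM', fun i j hij => ?_⟩
    obtain ⟨l, hl⟩ := hτ.2 i j hij
    refine ⟨l, lt_of_le_of_lt ?_ (hl.trans_le ?_)⟩
    · gcongr
    · have : (0 : ℝ) ≤ τ * (1 - τ) := mul_nonneg τ.2.1 (sub_nonneg.2 τ.2.2)
      gcongr
  have hcover : (Set.univ : Set unitInterval) ⊆ ⋃ N, S N := by
    intro τ _
    have hc : (0 : ℝ) ≤ τ * (1 - τ) := mul_nonneg τ.2.1 (sub_nonneg.2 τ.2.2)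
    have h1 : ∀ᶠ N : ℕ in atTop, ∀ i l, dil (ρ i) l τ < N :=
      eventually_all.2 fun i => eventually_all.2 fun l =>
        tendsto_natCast_atTop_atTop.eventually_gt_atTop _
    have h2 : ∀ᶠ N : ℕ in atTop, ∀ i j, i ≠ j → ∃ l,
        dil (ρ i) l τ * h i l + dil (ρ j) l τ * h j l + 3 * (1 / ((N : ℝ) + 1)) <
          (1 + N * (τ * (1 - τ))) * |p i l τ - p j l τ| := by
      refine eventually_all.2 fun i => eventually_all.2 fun j => eventually_all.2 fun hij => ?_
      have key : ∃ l, dil (ρ i) l τ * h i l + dil (ρ j) l τ * h j l < |p i l τ - p j l τ| ∨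
          0 < (τ * (1 - τ) : ℝ) * |p i l τ - p j l τ| := by
        by_cases h0 : (τ : ℝ) = 0
        · obtain ⟨l, hl⟩ := exists_sep_of_disjoint (hh i) (hh j) (ha hij)
          exact ⟨l, Or.inl (by simpa [h0, dil_zero, p, arc] using hl)⟩
        by_cases h1 : (τ : ℝ) = 1
        · obtain ⟨l, hl⟩ := exists_sep_of_disjoint (hk i) (hk j) (hb hij)
          refine ⟨l, Or.inl ?_⟩
          have e : ∀ i, ((ρ i l : ℚ) : ℝ) * h i l = k i l := fun i => by
            have : ((h i l : ℚ) : ℝ) ≠ 0 := by exact_mod_cast (hh i l).ne'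
            simp only [ρ]; push_cast; field_simp
          rw [h1, dil_one (hvol i), dil_one (hvol j), e, e]
          simpa [p, arc] using hl
        have hpos : (0 : ℝ) < τ * (1 - τ) :=
          mul_pos (lt_of_le_of_ne τ.2.1 (Ne.symm h0)) (sub_pos.2 (lt_of_le_of_ne τ.2.2 h1))
        by_contra hcon
        push Not at hcon
        have h3 := hw (i, j) (1 - τ) τ (τ * (1 - τ) * (((i : ℕ) : ℝ) - (j : ℕ))) fun l => by
          have h4 := (hcon l).2
          have h5 : |p i l τ - p j l τ| = 0 :=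
            le_antisymm (le_of_mul_le_mul_left (by simpa using h4) hpos) (abs_nonneg _)
          have h6 := abs_eq_zero.1 h5
          simp only [p, arc] at h6
          push_cast at h6 ⊢
          linear_combination h6
        rcases mul_eq_zero.1 h3 with h7 | h7
        · exact hpos.ne' h7
        · exact hij (Fin.ext (by exact_mod_cast sub_eq_zero.1 h7))
      obtain ⟨l, hl⟩ := key
      filter_upwards [eventually_sep hc (abs_nonneg _) hl] with N hN using ⟨l, hN⟩
    obtain ⟨N, hN⟩ := (h1.and h2).exists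
    exact Set.mem_iUnion.2 ⟨N, hN⟩
  obtain ⟨N, hN⟩ := isCompact_univ.elim_directed_cover S hopen hcover hmono.directed_le
  have hN' : ∀ t, (⟨theta t, theta_nonneg t, theta_le_one t⟩ : unitInterval) ∈ S N :=
    fun t => hN (Set.mem_univ _)
  refine ⟨{
    c := fun i l t => (1 + N * (theta t * (1 - theta t))) * p i l (theta t)
    d := fun i l t => dil (ρ i) l (theta t)
    η := 1 / ((N : ℚ) + 1)
    D := N
    η_pos := by positivity
    good_c := fun i l => (Good.one.add ((Good.natConst N).mul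
      (good_theta.mul (Good.one.sub good_theta)))).mul (good_arc _ _ _)
    good_d := fun i l => ?_
    good_dinv := fun i l => ?_
    d_pos := fun i l t => dil_pos (hρ i) l (theta_nonneg t) (theta_le_one t)
    d_le := fun i l t => ((hN' t).1 i l).le
    d_prod := fun i t => ?_
    start := fun i l t ht => by simp [theta_start ht, dil_zero, p, arc]
    stop := fun i l t ht => by
      rw [theta_stop ht, dil_one (hvol i)]
      simp [p, arc]
    sep := fun i j hij t => ?_ }⟩
  · fin_cases l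
    · exact good_lin _
    · exact good_lin _
    · exact ((good_lin_inv (hρ i 0)).mul (good_lin_inv (hρ i 1))).congr fun q => by
        simp [dil, mul_comm]
  · fin_cases l
    · exact good_lin_inv (hρ i 0)
    · exact good_lin_inv (hρ i 1)
    · exact ((good_lin (ρ i 0)).mul (good_lin (ρ i 1))).congr fun q => by simp [dil, mul_comm]
  · exact mul_inv_cancel₀ (mul_pos (lin_pos (hρ i 0) (theta_nonneg t) (theta_le_one t))
      (lin_pos (hρ i 1) (theta_nonneg t) (theta_le_one t))).ne'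
  · obtain ⟨l, hl⟩ := (hN' t).2 i j hij
    refine ⟨l, ?_⟩
    have hc : (0 : ℝ) ≤ theta t * (1 - theta t) :=
      mul_nonneg (theta_nonneg t) (sub_nonneg.2 (theta_le_one t))
    rw [← mul_sub, abs_mul, abs_of_nonneg (by positivity)]
    push_cast
    exact hl

end Crest.Agent.R126
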